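import Vale.Agent.P314.Defs

/-!
# Noncommutative algebraic branching programs
-/

namespace Vale.Agent.P314

/-- A noncommutative algebraic branching program over `F` in the variables `x_i`, `i : Fin n`: an
acyclic directed graph on the vertices `0, …, size - 1`, listed in a topological order, with an
affine linear form on every edge `u → v`, `u < v`, a source and a sink. -/
structure NCBranching (F : Type*) (n : ℕ) where
  /-- the number of vertices -/
  size : ℕ
  /-- the constant term of the form on the edge `u → v` -/
  const : Fin size → Fin size → F
  /-- the coefficient of `x_i` in the form on the edge `u → v` -/
  coeff : Fin size → Fin size → Fin n → F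
  /-- the source -/
  source : Fin size
  /-- the sink -/
  sink : Fin size

namespace NCBranching

variable {F : Type*} [Field F] {n : ℕ}

/-- The matrix of edge labels; entries outside `u < v` are `0`. -/
noncomputable def label (P : NCBranching F n) :
    Matrix (Fin P.size) (Fin P.size) (FreeAlgebra F (Fin n)) :=
  Matrix.of fun u v => if u < v then
    algebraMap F (FreeAlgebra F (Fin n)) (P.const u v) + ∑ i, P.coeff u v i • FreeAlgebra.ι F i
    else 0

/-- The polynomial computed by a branching program: the sum over all directed paths from the
source to the sink of the ordered products of the labels.  The paths with `k` edges contribute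
the entry of the `k`-th power of the matrix of labels. -/
noncomputable def toPoly (P : NCBranching F n) : FreeAlgebra F (Fin n) :=
  ∑ k ∈ Finset.range P.size, (P.label ^ k) P.source P.sink

end NCBranching

/-- The polynomials computed by branching programs with at most `s` vertices. -/
def branchingPolys (F : Type*) [Field F] (n s : ℕ) : Set (FreeAlgebra F (Fin n)) :=
  {f | ∃ P : NCBranching F n, P.size ≤ s ∧ P.toPoly = f}

end Vale.Agent.P314
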