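import Vale.Agent.P314.Core
import Vale.Agent.P314.ABPDefs

/-!
# The stable subspace of a branching program
-/

namespace Vale.Agent.P314

open Finset

section ABPStable

variable {K : Type*} [Field K] (σ : K ≃+* K) {F : Type*} [Field F] [Algebra F K] {n : ℕ}
  (φ : Fin n → K)

theorem Y_add' (f g : FreeAlgebra F (Fin n)) : Y σ φ (f + g) = Y σ φ f + Y σ φ g := by
  unfold Y
  rw [map_add, LinearMap.add_apply]

theorem Y_zero' : Y σ φ (0 : FreeAlgebra F (Fin n)) = 0 := by
  unfold Y
  rw [map_zero, LinearMap.zero_apply]

theorem Y_one' : Y σ φ (1 : FreeAlgebra F (Fin n)) = one := by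
  unfold Y
  rw [map_one, Module.End.one_apply]

theorem Y_sum' {ι : Type*} (s : Finset ι) (f : ι → FreeAlgebra F (Fin n)) :
    Y σ φ (∑ i ∈ s, f i) = ∑ i ∈ s, Y σ φ (f i) := by
  unfold Y
  rw [map_sum, LinearMap.sum_apply]

theorem Y_smul' (a : F) (f : FreeAlgebra F (Fin n)) :
    Y σ φ (a • f) = algebraMap F K a • Y σ φ f := by
  unfold Y
  rw [map_smul, LinearMap.smul_apply, algebraMap_smul]

variable (hσ : ∀ a : F, σ (algebraMap F K a) = algebraMap F K a)

include hσ in
theorem theta_Y_mul_ι (h : FreeAlgebra F (Fin n)) (i : Fin n) :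
    theta σ (Y σ φ (h * FreeAlgebra.ι F i)) =
      Y σ φ (h * FreeAlgebra.ι F i) + σ.symm (φ i) • Y σ φ h := by
  have h1 : Y σ φ (h * FreeAlgebra.ι F i) = op σ φ h (nsum σ (φ i) one) := by
    unfold Y
    rw [map_mul, Module.End.mul_apply, op_ι]
  rw [h1, theta_op σ φ hσ, theta_nsum, theta_one, nsum_zero, map_zero, zero_smul, add_zero,
    map_add, map_smul, one_apply, mul_one]
  rfl

omit [Field F] in
theorem pow_apply_eq_zero {R : Type*} [Semiring R] {m : ℕ} (L : Matrix (Fin m) (Fin m) R)
    (hL : ∀ u v, ¬ u < v → L u v = 0) (k : ℕ) : ∀ u v : Fin m, v.1 < u.1 + k → (L ^ k) u v = 0 := by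
  induction k with
  | zero =>
    intro u v huv
    rw [pow_zero, Matrix.one_apply_ne]
    rintro rfl
    omega
  | succ k ih =>
    intro u v huv
    rw [pow_succ, Matrix.mul_apply]
    refine Finset.sum_eq_zero fun w _ => ?_
    by_cases hw : w.1 < u.1 + k
    · rw [ih u w hw, zero_mul]
    · rw [hL w v (by intro h; have : w.1 < v.1 := h; omega), mul_zero]

theorem path_rec (P : NCBranching F n) (v : Fin P.size) :
    ∑ k ∈ range P.size, (P.label ^ k) P.source v = (if P.source = v then 1 else 0) +
      ∑ u, (∑ k ∈ range P.size, (P.label ^ k) P.source u) * P.label u v := by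
  have h0 : ∀ u v : Fin P.size, ¬ u < v → P.label u v = 0 := by
    intro u v h
    simp [NCBranching.label, h]
  have h1 : ∑ u, (∑ k ∈ range P.size, (P.label ^ k) P.source u) * P.label u v =
      ∑ k ∈ range P.size, (P.label ^ (k + 1)) P.source v := by
    simp only [Finset.sum_mul, pow_succ, Matrix.mul_apply]
    rw [Finset.sum_comm]
  rw [h1, ← Matrix.one_apply, ← pow_zero P.label, add_comm,
    ← Finset.sum_range_succ' (fun k => (P.label ^ k) P.source v), Finset.sum_range_succ,
    pow_apply_eq_zero P.label h0 P.size P.source v (by omega), add_zero]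

include hσ in
/-- (P1) for branching programs -/
theorem exists_stable_abp (P : NCBranching F n) :
    ∃ W : Submodule K (ℕ → K), Stable σ W ∧ Y σ φ P.toPoly ∈ W ∧ FiniteDimensional K W ∧
      Module.finrank K W ≤ P.size := by
  classical
  set h : Fin P.size → FreeAlgebra F (Fin n) :=
    fun v => ∑ k ∈ range P.size, (P.label ^ k) P.source v with hh
  set y : Fin P.size → ℕ → K := fun v => Y σ φ (h v) with hy
  have hF : ∀ a : F, σ.symm (algebraMap F K a) = algebraMap F K a := fun a => by
    rw [RingEquiv.symm_apply_eq, hσ]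
  -- the node sequences
  have hrec : ∀ v, y v = (if P.source = v then one else 0) +
      ∑ u, if u < v then algebraMap F K (P.const u v) • y u + ∑ i, algebraMap F K
        (P.coeff u v i) • Y σ φ (h u * FreeAlgebra.ι F i) else 0 := by
    intro v
    have h1 : h v = (if P.source = v then 1 else 0) + ∑ u, h u * P.label u v := path_rec P v
    have h2 : y v = Y σ φ (h v) := rfl
    rw [h2, h1, Y_add', Y_sum']
    congr 1
    · split_ifs
      · exact Y_one' σ φ
      · exact Y_zero' σ φ
    · refine Finset.sum_congr rfl fun u _ => ?_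
      simp only [NCBranching.label, Matrix.of_apply]
      split_ifs
      · rw [mul_add, Y_add', Finset.mul_sum, Y_sum', ← Algebra.commutes, ← Algebra.smul_def,
          Y_smul']
        congr 1
        refine Finset.sum_congr rfl fun i _ => ?_
        rw [mul_smul_comm, Y_smul']
      · rw [mul_zero, Y_zero']
  have hθ : ∀ v, theta σ (y v) = (if P.source = v then one else 0) +
      ∑ u, if u < v then algebraMap F K (P.const u v) • theta σ (y u) + ∑ i, algebraMap F K
        (P.coeff u v i) • (Y σ φ (h u * FreeAlgebra.ι F i) + σ.symm (φ i) • y u) else 0 := by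
    intro v
    rw [hrec v, theta_add, theta_sum]
    congr 1
    · split_ifs
      · exact theta_one σ
      · exact theta_zero σ
    · refine Finset.sum_congr rfl fun u _ => ?_
      split_ifs
      · rw [theta_add, theta_sum, theta_smul, hF]
        congr 1
        refine Finset.sum_congr rfl fun i _ => ?_
        rw [theta_smul, hF, theta_Y_mul_ι σ φ hσ]
      · exact theta_zero σ
  set W := Submodule.span K (Set.range y) with hW
  have hyW : ∀ v, y v ∈ W := fun v => Submodule.subset_span ⟨v, rfl⟩
  have key : ∀ N : ℕ, ∀ v : Fin P.size, v.1 = N → theta σ (y v) ∈ W := by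
    intro N
    induction N using Nat.strong_induction_on with
    | _ N ih =>
      intro v hv
      have h3 : theta σ (y v) = y v + ∑ u, if u < v then
          algebraMap F K (P.const u v) • (theta σ (y u) - y u) +
          ∑ i, algebraMap F K (P.coeff u v i) • (σ.symm (φ i) • y u) else 0 := by
        rw [hθ v]
        conv_rhs => rw [hrec v]
        rw [add_assoc, ← Finset.sum_add_distrib]
        congr 1
        refine Finset.sum_congr rfl fun u _ => ?_
        split_ifs
        · simp only [smul_add, Finset.sum_add_distrib, smul_sub]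
          abel
        · rw [add_zero]
      rw [h3]
      refine Submodule.add_mem _ (hyW v) (Submodule.sum_mem _ fun u _ => ?_)
      split_ifs with huv
      · have huv' : u.1 < N := by
          rw [← hv]
          exact huv
        refine Submodule.add_mem _ (Submodule.smul_mem _ _
          (Submodule.sub_mem _ (ih u.1 huv' u rfl) (hyW u))) (Submodule.sum_mem _ fun i _ => ?_)
        exact Submodule.smul_mem _ _ (Submodule.smul_mem _ _ (hyW u))
      · exact Submodule.zero_mem _
  refine ⟨W, ?_, hyW P.sink, FiniteDimensional.span_of_finite K (Set.finite_range y), ?_⟩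
  · apply stable_span
    rintro _ ⟨v, rfl⟩
    exact key v.1 v rfl
  · exact (finrank_range_le_card y).trans (by simp)

end ABPStable

end Vale.Agent.P314
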