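import Vale.Agent.P314.Defs

/-!
# Nested sums over a difference field

`K` is a field with an automorphism `σ`, `φ : Fin n → K`.  The nested sum operators
`(T_i x)(k) = ∑_{j<k} σ^j(φ_i) x(j)` give a representation of the free algebra; we show that it is
faithful on formulas of size `s` already when restricted to the first `s + 1` terms.
-/

namespace Vale.Agent.P314

open Finset

section Core

variable {K : Type*} [Field K] (σ : K ≃+* K)

/-- nested-sum operator -/
def nsum (a : K) : (ℕ → K) →ₗ[K] (ℕ → K) where
  toFun x k := ∑ j ∈ range k, σ^[j] a * x j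
  map_add' x y := by
    funext k
    simp [mul_add, Finset.sum_add_distrib]
  map_smul' c x := by
    funext k
    simp only [Pi.smul_apply, smul_eq_mul, RingHom.id_apply, Finset.mul_sum]
    exact Finset.sum_congr rfl fun j _ => by ring

theorem nsum_apply (a : K) (x : ℕ → K) (k : ℕ) :
    nsum σ a x k = ∑ j ∈ range k, σ^[j] a * x j := rfl

@[simp] theorem nsum_zero (a : K) (x : ℕ → K) : nsum σ a x 0 = 0 := by
  simp [nsum_apply]

/-- the semilinear shift -/
def theta (x : ℕ → K) : ℕ → K := fun k => σ.symm (x (k + 1))

theorem theta_apply (x : ℕ → K) (k : ℕ) : theta σ x k = σ.symm (x (k + 1)) := rfl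

theorem theta_add (x y : ℕ → K) : theta σ (x + y) = theta σ x + theta σ y := by
  funext k; simp [theta_apply]

theorem theta_smul (c : K) (x : ℕ → K) : theta σ (c • x) = σ.symm c • theta σ x := by
  funext k; simp [theta_apply]

theorem theta_zero : theta σ (0 : ℕ → K) = 0 := by
  funext k; simp [theta_apply]

theorem theta_sum {ι : Type*} (s : Finset ι) (f : ι → ℕ → K) :
    theta σ (∑ i ∈ s, f i) = ∑ i ∈ s, theta σ (f i) := by
  classical
  induction s using Finset.induction_on with
  | empty => simp [theta_zero]
  | insert a s ha ih => rw [Finset.sum_insert ha, Finset.sum_insert ha, theta_add, ih]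

/-- the constant sequence `1` -/
def one : ℕ → K := fun _ => 1

@[simp] theorem one_apply (k : ℕ) : (one : ℕ → K) k = 1 := rfl

@[simp] theorem theta_one : theta σ (one : ℕ → K) = one := by
  funext k; simp [theta_apply]

theorem theta_nsum (a : K) (x : ℕ → K) :
    theta σ (nsum σ a x) = nsum σ a (theta σ x) + σ.symm (a * x 0) • one := by
  funext k
  simp only [theta_apply, nsum_apply, Pi.add_apply, Pi.smul_apply, one_apply, smul_eq_mul,
    mul_one]
  rw [Finset.sum_range_succ', map_add, map_sum]
  congr 1
  refine Finset.sum_congr rfl fun j _ => ?_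
  rw [map_mul, Function.iterate_succ_apply', RingEquiv.symm_apply_apply]

variable {F : Type*} [Field F] [Algebra F K] {n : ℕ} (φ : Fin n → K)

/-- The representation of the free algebra by nested-sum operators. -/
noncomputable def op : FreeAlgebra F (Fin n) →ₐ[F] Module.End K (ℕ → K) :=
  FreeAlgebra.lift F fun i => nsum σ (φ i)

/-- `Y_f = f(T) 1` -/
noncomputable def Y (f : FreeAlgebra F (Fin n)) : ℕ → K := op σ φ f one

@[simp] theorem op_ι (i : Fin n) : op (F := F) σ φ (FreeAlgebra.ι F i) = nsum σ (φ i) := by
  simp [op]

theorem op_algebraMap (a : F) (x : ℕ → K) :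
    op σ φ (algebraMap F (FreeAlgebra F (Fin n)) a) x = algebraMap F K a • x := by
  rw [AlgHom.commutes, Module.algebraMap_end_apply, algebraMap_smul]

theorem op_zero_apply (g : FreeAlgebra F (Fin n)) :
    ∀ x : ℕ → K, op σ φ g x 0 = Y σ φ g 0 * x 0 := by
  unfold Y
  induction g using FreeAlgebra.induction with
  | grade0 r => intro x; simp
  | grade1 i => intro x; simp
  | mul a b ha hb =>
    intro x
    rw [map_mul, Module.End.mul_apply, Module.End.mul_apply, ha, hb, ha (op σ φ b one)]
    ring
  | add a b ha hb =>
    intro x
    rw [map_add, LinearMap.add_apply, LinearMap.add_apply, Pi.add_apply, Pi.add_apply, ha, hb]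
    ring

variable (hσ : ∀ a : F, σ (algebraMap F K a) = algebraMap F K a)

include hσ in
theorem theta_op (g : FreeAlgebra F (Fin n)) :
    ∀ x : ℕ → K, theta σ (op σ φ g x) =
      op σ φ g (theta σ x) + σ.symm (x 0) • (theta σ (Y σ φ g) - Y σ φ g) := by
  have hσ' : ∀ a : F, σ.symm (algebraMap F K a) = algebraMap F K a := by
    intro a
    rw [RingEquiv.symm_apply_eq, hσ]
  induction g using FreeAlgebra.induction with
  | grade0 r =>
    intro x
    simp only [Y, op_algebraMap, theta_smul, hσ', theta_one, sub_self, smul_zero, add_zero]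
  | grade1 i =>
    intro x
    simp only [Y, op_ι, theta_nsum, theta_one, one_apply, mul_one, add_sub_cancel_left, map_mul,
      smul_smul]
    rw [mul_comm]
  | mul a b ha hb =>
    intro x
    have h1 : theta σ (op σ φ a (op σ φ b x)) =
        op σ φ a (op σ φ b (theta σ x)) +
          σ.symm (x 0) • op σ φ a (theta σ (Y σ φ b) - Y σ φ b) +
          (σ.symm (Y σ φ b 0) * σ.symm (x 0)) • (theta σ (Y σ φ a) - Y σ φ a) := by
      rw [ha, hb, map_add, map_smul, op_zero_apply, map_mul]
    have h2 : theta σ (Y σ φ (a * b)) =
        op σ φ a (theta σ (Y σ φ b)) + σ.symm (Y σ φ b 0) • (theta σ (Y σ φ a) - Y σ φ a) := by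
      unfold Y
      rw [map_mul, Module.End.mul_apply, ha]
      rfl
    have h3 : Y σ φ (a * b) = op σ φ a (Y σ φ b) := by
      unfold Y
      rw [map_mul, Module.End.mul_apply]
    rw [map_mul, Module.End.mul_apply, Module.End.mul_apply, h1, h2, h3, map_sub]
    module
  | add a b ha hb =>
    intro x
    have h3 : Y σ φ (a + b) = Y σ φ a + Y σ φ b := by
      unfold Y
      rw [map_add, LinearMap.add_apply]
    rw [map_add, LinearMap.add_apply, LinearMap.add_apply, theta_add, ha, hb, h3, theta_add]
    module

/-- stable subspaces -/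
def Stable (W : Submodule K (ℕ → K)) : Prop := ∀ x ∈ W, theta σ x ∈ W

theorem stable_span {s : Set (ℕ → K)} (h : ∀ x ∈ s, theta σ x ∈ Submodule.span K s) :
    Stable σ (Submodule.span K s) := by
  intro x hx
  induction hx using Submodule.span_induction with
  | mem x hx => exact h x hx
  | zero => rw [theta_zero]; exact Submodule.zero_mem _
  | add x y _ _ hx hy => rw [theta_add]; exact Submodule.add_mem _ hx hy
  | smul c x _ hx => rw [theta_smul]; exact Submodule.smul_mem _ _ hx

theorem stable_sup {V W : Submodule K (ℕ → K)} (hV : Stable σ V) (hW : Stable σ W) :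
    Stable σ (V ⊔ W) := by
  intro x hx
  obtain ⟨v, hv, w, hw, rfl⟩ := Submodule.mem_sup.1 hx
  rw [theta_add]
  exact Submodule.add_mem_sup (hV v hv) (hW w hw)

include hσ in
theorem stable_mul {a : FreeAlgebra F (Fin n)} {V W : Submodule K (ℕ → K)}
    (hV : Stable σ V) (hW : Stable σ W) (ha : Y σ φ a ∈ V) :
    Stable σ (W.map (op σ φ a) ⊔ V) := by
  intro x hx
  obtain ⟨w, hw, v, hv, rfl⟩ := Submodule.mem_sup.1 hx
  obtain ⟨u, hu, rfl⟩ := Submodule.mem_map.1 hw
  rw [theta_add, theta_op σ φ hσ, add_assoc]
  refine Submodule.add_mem_sup (Submodule.mem_map_of_mem (hW u hu)) ?_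
  exact Submodule.add_mem _ (Submodule.smul_mem _ _ (Submodule.sub_mem _ (hV _ ha) ha)) (hV v hv)

include hσ in
/-- (P1) -/
theorem exists_stable (p : NCFormula F n) :
    ∃ W : Submodule K (ℕ → K), Stable σ W ∧ Y σ φ p.toPoly ∈ W ∧ FiniteDimensional K W ∧
      Module.finrank K W ≤ p.size + 1 := by
  classical
  induction p with
  | var i =>
    refine ⟨Submodule.span K ({nsum σ (φ i) one, one} : Finset (ℕ → K)), ?_, ?_, ?_, ?_⟩
    · apply stable_span
      intro x hx
      simp only [coe_insert, coe_singleton, Set.mem_insert_iff, Set.mem_singleton_iff] at hx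
      rcases hx with rfl | rfl
      · rw [theta_nsum, theta_one]
        refine Submodule.add_mem _ (Submodule.subset_span (by simp)) ?_
        exact Submodule.smul_mem _ _ (Submodule.subset_span (by simp))
      · rw [theta_one]
        exact Submodule.subset_span (by simp)
    · simp only [NCFormula.toPoly, Y, op_ι]
      exact Submodule.subset_span (by simp)
    · exact FiniteDimensional.span_finset K _
    · refine (finrank_span_finset_le_card _).trans ?_
      refine (Finset.card_insert_le _ _).trans ?_
      simp [NCFormula.size]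
  | scalar a =>
    refine ⟨Submodule.span K ({one} : Finset (ℕ → K)), ?_, ?_, ?_, ?_⟩
    · apply stable_span
      intro x hx
      simp only [coe_singleton, Set.mem_singleton_iff] at hx
      subst hx
      rw [theta_one]
      exact Submodule.subset_span (by simp)
    · simp only [NCFormula.toPoly, Y, op_algebraMap]
      exact Submodule.smul_mem _ _ (Submodule.subset_span (by simp))
    · exact FiniteDimensional.span_finset K _
    · refine (finrank_span_finset_le_card _).trans ?_
      simp
  | add p q hp hq =>
    obtain ⟨V, hV1, hV2, hV3, hV4⟩ := hp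
    obtain ⟨W, hW1, hW2, hW3, hW4⟩ := hq
    refine ⟨V ⊔ W, stable_sup σ hV1 hW1, ?_, inferInstance, ?_⟩
    · have : Y σ φ (p.toPoly + q.toPoly) = Y σ φ p.toPoly + Y σ φ q.toPoly := by
        unfold Y
        rw [map_add, LinearMap.add_apply]
      simp only [NCFormula.toPoly]
      rw [this]
      exact Submodule.add_mem_sup hV2 hW2
    · have := Submodule.finrank_add_le_finrank_add_finrank V W
      simp only [NCFormula.size]
      omega
  | mul p q hp hq =>
    obtain ⟨V, hV1, hV2, hV3, hV4⟩ := hp
    obtain ⟨W, hW1, hW2, hW3, hW4⟩ := hq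
    refine ⟨W.map (op σ φ p.toPoly) ⊔ V, stable_mul σ φ hσ hV1 hW1 hV2, ?_, inferInstance, ?_⟩
    · have : Y σ φ (p.toPoly * q.toPoly) = op σ φ p.toPoly (Y σ φ q.toPoly) := by
        unfold Y
        rw [map_mul, Module.End.mul_apply]
      simp only [NCFormula.toPoly]
      rw [this]
      exact Submodule.mem_sup_left (Submodule.mem_map_of_mem hW2)
    · have h1 := Submodule.finrank_add_le_finrank_add_finrank (W.map (op σ φ p.toPoly)) V
      have h2 : Module.finrank K (W.map (op σ φ p.toPoly)) ≤ Module.finrank K W :=
        Submodule.finrank_map_le _ _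
      simp only [NCFormula.size]
      omega

/-- If a vector of a stable subspace of dimension at most `m` vanishes at the first `m` places,
then it vanishes. -/
theorem eq_zero_of_vanish {W : Submodule K (ℕ → K)} (hW : Stable σ W) [FiniteDimensional K W]
    {m : ℕ} (hm : Module.finrank K W ≤ m) {y : ℕ → K} (hy : y ∈ W) (h0 : ∀ k < m, y k = 0) :
    y = 0 := by
  classical
  set Θ : ℕ → (ℕ → K) := fun j => (theta σ)^[j] y with hΘ
  have hΘW : ∀ j, Θ j ∈ W := by
    intro j
    induction j with
    | zero => exact hy
    | succ j ih =>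
      simp only [hΘ, Function.iterate_succ_apply'] at ih ⊢
      exact hW _ ih
  -- some iterate lies in the span of the previous ones
  have hex : ∃ l ≤ m, Θ l ∈ Submodule.span K (Θ '' Set.Iio l) := by
    by_contra hcon
    push Not at hcon
    have hind : ∀ l ≤ m + 1, LinearIndependent K (fun j : Fin l => Θ j) := by
      intro l
      induction l with
      | zero => intro _; exact linearIndependent_empty_type
      | succ l ih =>
        intro hl
        have h1 := ih (by omega)
        rw [linearIndependent_finSucc']
        refine ⟨?_, ?_⟩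
        · exact h1
        · intro hmem
          refine hcon l (by omega) ?_
          have : (Set.range (Fin.init fun j : Fin (l + 1) => Θ j)) ⊆ Θ '' Set.Iio l := by
            rintro _ ⟨j, rfl⟩
            exact ⟨j, j.2, rfl⟩
          simpa using Submodule.span_mono this hmem
    have h2 := hind (m + 1) le_rfl
    have h3 : LinearIndependent K (fun j : Fin (m + 1) => (⟨Θ j, hΘW j⟩ : W)) := by
      apply LinearIndependent.of_comp W.subtype
      exact h2
    have h4 := h3.fintype_card_le_finrank
    simp only [Fintype.card_fin] at h4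
    omega
  obtain ⟨l, hlm, hl⟩ := hex
  set V : Submodule K (ℕ → K) := Submodule.span K (Θ '' Set.Iio l) with hV
  have hVst : Stable σ V := by
    apply stable_span
    rintro _ ⟨j, hj, rfl⟩
    have h5 : theta σ (Θ j) = Θ (j + 1) := by
      simp only [hΘ, Function.iterate_succ_apply']
    rw [h5]
    rcases Nat.lt_or_ge (j + 1) l with h6 | h6
    · exact Submodule.subset_span ⟨j + 1, h6, rfl⟩
    · have h7 : j + 1 = l := by
        have : j < l := hj
        omega
      rw [h7]
      exact hl
  have hval : ∀ j, Θ j 0 = (σ.symm)^[j] (y j) := by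
    intro j
    have : ∀ j k, Θ j k = (σ.symm)^[j] (y (k + j)) := by
      intro j
      induction j with
      | zero => intro k; rfl
      | succ j ih =>
        intro k
        have : Θ (j + 1) k = σ.symm (Θ j (k + 1)) := by
          simp only [hΘ, Function.iterate_succ_apply', theta_apply]
        rw [this, ih, Function.iterate_succ_apply', Nat.add_right_comm, Nat.add_assoc]
    simpa using this j 0
  have hV0 : ∀ x ∈ V, x 0 = 0 := by
    intro x hx
    induction hx using Submodule.span_induction with
    | mem x hx =>
      obtain ⟨j, hj, rfl⟩ := hx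
      have : j < l := hj
      rw [hval, h0 j (by omega)]
      exact Function.iterate_fixed (map_zero _) _
    | zero => rfl
    | add x z _ _ hx hz => rw [Pi.add_apply, hx, hz, add_zero]
    | smul c x _ hx => rw [Pi.smul_apply, hx, smul_zero]
  have hall : ∀ j, Θ (l + j) ∈ V := by
    intro j
    induction j with
    | zero => exact hl
    | succ j ih =>
      have h5 : Θ (l + (j + 1)) = theta σ (Θ (l + j)) := by
        rw [← Nat.add_assoc]
        simp only [hΘ, Function.iterate_succ_apply']
      rw [h5]
      exact hVst _ ih
  have hinj : ∀ j (a : K), (σ.symm)^[j] a = 0 → a = 0 := by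
    intro j
    induction j with
    | zero => intro a ha; exact ha
    | succ j ih =>
      intro a ha
      rw [Function.iterate_succ_apply'] at ha
      exact ih a ((map_eq_zero _).1 ha)
  funext k
  rcases Nat.lt_or_ge k m with hk | hk
  · exact h0 k hk
  · have h6 := hV0 _ (hall (k - l))
    rw [hval] at h6
    have h7 : l + (k - l) = k := by omega
    rw [h7] at h6
    exact hinj _ _ h6

end Core

end Vale.Agent.P314
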