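import Vale.Agent.P314.Defs

/-!
# The output encoding is injective
-/

namespace Vale.Agent.P314

/-- self-delimiting encodings -/
def Delim {β : Type*} (e : β → List Sym) : Prop :=
  ∀ (a a' : β) (x x' : List Sym), e a ++ x = e a' ++ x' → a = a' ∧ x = x'

theorem Delim.flatMap_aux {ι β : Type*} {e : β → List Sym} (he : Delim e) (l : List ι)
    (v v' : ι → β) (x x' : List Sym)
    (h : (l.flatMap fun i => e (v i)) ++ x = (l.flatMap fun i => e (v' i)) ++ x') :
    (∀ i ∈ l, v i = v' i) ∧ x = x' := by
  induction l with
  | nil => exact ⟨by simp, by simpa using h⟩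
  | cons a l ih =>
    rw [List.flatMap_cons, List.flatMap_cons, List.append_assoc, List.append_assoc] at h
    obtain ⟨h1, h2⟩ := he _ _ _ _ h
    obtain ⟨h3, h4⟩ := ih h2
    refine ⟨?_, h4⟩
    intro i hi
    rcases List.mem_cons.1 hi with rfl | hi
    · exact h1
    · exact h3 i hi

theorem Delim.pi {β : Type*} {e : β → List Sym} (he : Delim e) (d : ℕ) :
    Delim fun v : Fin d → β => (List.finRange d).flatMap fun i => e (v i) := by
  intro v v' x x' h
  obtain ⟨h1, h2⟩ := he.flatMap_aux _ v v' x x' h
  exact ⟨funext fun i => h1 i (List.mem_finRange i), h2⟩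

theorem Delim.list {β : Type*} {e : β → List Sym} (he : Delim e) (l : List β) :
    ∀ l' : List β, l.length = l'.length → ∀ x x' : List Sym,
      l.flatMap e ++ x = l'.flatMap e ++ x' → l = l' ∧ x = x' := by
  induction l with
  | nil =>
    intro l' hl x x' h
    obtain rfl : l' = [] := List.length_eq_zero_iff.1 hl.symm
    exact ⟨rfl, by simpa using h⟩
  | cons a l ih =>
    intro l' hl x x' h
    cases l' with
    | nil => simp at hl
    | cons a' l' =>
      rw [List.flatMap_cons, List.flatMap_cons, List.append_assoc, List.append_assoc] at h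
      obtain ⟨h1, h2⟩ := he _ _ _ _ h
      obtain ⟨h3, h4⟩ := ih l' (by simpa using hl) x x' h2
      exact ⟨by rw [h1, h3], h4⟩

theorem delim_encodeUnary : Delim encodeUnary := by
  intro m
  induction m with
  | zero =>
    intro m' x x' h
    cases m' with
    | zero => exact ⟨rfl, by simpa [encodeUnary] using h⟩
    | succ m' => simp [encodeUnary, List.replicate_succ] at h
  | succ m ih =>
    intro m' x x' h
    cases m' with
    | zero => simp [encodeUnary, List.replicate_succ] at h
    | succ m' =>
      have h' : encodeUnary m ++ x = encodeUnary m' ++ x' := by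
        simpa [encodeUnary, List.replicate_succ] using h
      obtain ⟨h1, h2⟩ := ih m' x x' h'
      exact ⟨by rw [h1], h2⟩

theorem bits_delim (l : List Bool) : ∀ (l' : List Bool) (x x' : List Sym),
    (l.map Sym.bit ++ [Sym.sep]) ++ x = (l'.map Sym.bit ++ [Sym.sep]) ++ x' →
      l = l' ∧ x = x' := by
  induction l with
  | nil =>
    intro l' x x' h
    cases l' with
    | nil => exact ⟨rfl, by simpa using h⟩
    | cons a l' => simp at h
  | cons a l ih =>
    intro l' x x' h
    cases l' with
    | nil => simp at h
    | cons a' l' =>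
      simp only [List.map_cons, List.cons_append, List.cons.injEq, Sym.bit.injEq] at h
      obtain ⟨h1, h2⟩ := ih l' x x' h.2
      exact ⟨by rw [h.1, h1], h2⟩

variable {F : Type*} {enc : F → List Bool}

theorem delim_encodeScalar (henc : Function.Injective enc) : Delim (encodeScalar enc) := by
  intro a a' x x' h
  obtain ⟨h1, h2⟩ := bits_delim (enc a) (enc a') x x' h
  exact ⟨henc h1, h2⟩

theorem delim_encodeMatrix (henc : Function.Injective enc) (d : ℕ) :
    Delim fun A : Matrix (Fin d) (Fin d) F => encodeMatrix enc A :=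
  ((delim_encodeScalar henc).pi d).pi d

theorem delim_encodeTuple (henc : Function.Injective enc) (n : ℕ) :
    Delim fun T : MatTuple F n => encodeTuple enc T := by
  rintro ⟨d, A⟩ ⟨d', A'⟩ x x' h
  simp only [encodeTuple, List.append_assoc] at h
  obtain ⟨h1, h2⟩ := delim_encodeUnary _ _ _ _ h
  subst h1
  obtain ⟨h3, h4⟩ := ((delim_encodeMatrix henc d).pi n) A A' x x' h2
  exact ⟨by rw [h3], h4⟩

/-- The encoding of the output determines the family of tuples. -/
theorem encodeOutput_injective (henc : Function.Injective enc) :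
    Function.Injective (encodeOutput enc) := by
  rintro ⟨n, l⟩ ⟨n', l'⟩ h
  simp only [encodeOutput, List.append_assoc] at h
  obtain ⟨h1, h2⟩ := delim_encodeUnary _ _ _ _ h
  subst h1
  obtain ⟨h3, h4⟩ := delim_encodeUnary _ _ _ _ h2
  obtain ⟨h5, _⟩ := (delim_encodeTuple henc n).list l l' h3 [] [] (by simpa using h4)
  rw [h5]

end Vale.Agent.P314
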