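import Vale.Agent.P314.Indep

/-!
# Faithfulness of the nested-sum representation
-/

namespace Vale.Agent.P314

open Finset

section Faithful

variable {K : Type*} [Field K] (σ : K ≃+* K) {F : Type*} [Field F] [Algebra F K]
  {n : ℕ} (φ : Fin n → K)

theorem op_word (w : List (Fin n)) (x : ℕ → K) :
    op σ φ ((w.map (FreeAlgebra.ι F)).prod) x = w.foldr (fun i y => nsum σ (φ i) y) x := by
  induction w with
  | nil => simp
  | cons i w ih => rw [List.map_cons, List.prod_cons, map_mul, Module.End.mul_apply, ih, op_ι]; rfl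

theorem Y_word (w : List (Fin n)) :
    Y σ φ ((w.map (FreeAlgebra.ι F)).prod) = Yw σ φ w := by
  unfold Y
  rw [op_word]
  induction w with
  | nil => rfl
  | cons i w ih => rw [List.foldr_cons, ih, Yw_cons]

theorem exists_coeffs (f : FreeAlgebra F (Fin n)) :
    ∃ c : List (Fin n) →₀ F, f = c.sum fun w a => a • (w.map (FreeAlgebra.ι F)).prod := by
  refine ⟨(FreeAlgebra.equivMonoidAlgebraFreeMonoid f).coeff, ?_⟩
  conv_lhs => rw [← FreeAlgebra.equivMonoidAlgebraFreeMonoid.symm_apply_apply f]
  have h : ∀ m, FreeAlgebra.equivMonoidAlgebraFreeMonoid.symm m =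
      MonoidAlgebra.lift F (FreeAlgebra F (Fin n)) (FreeMonoid (Fin n))
        (FreeMonoid.lift (FreeAlgebra.ι F)) m := fun m => rfl
  rw [h, MonoidAlgebra.lift_apply]
  unfold Finsupp.sum
  refine Finset.sum_congr rfl fun w _ => ?_
  exact congrArg _ (FreeMonoid.lift_apply (M := FreeAlgebra F (Fin n)) (FreeAlgebra.ι F) w)

theorem eq_zero_of_Y
    (hNE : ∀ α : Fin n → K, (∀ i, σ (α i) = α i) → ∀ c : K, ∑ i, α i * φ i = σ c - c →
      ∀ i, α i = 0) (f : FreeAlgebra F (Fin n)) (hf : Y σ φ f = 0) : f = 0 := by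
  classical
  obtain ⟨c, hc⟩ := exists_coeffs f
  set d : ℕ := c.support.sup List.length with hd
  have h1 : Y σ φ f = lincomb σ φ (fun w => algebraMap F K (c w)) d := by
    conv_lhs => rw [hc]
    unfold Y Finsupp.sum
    rw [map_sum, LinearMap.sum_apply]
    have h2 : ∀ w, (op σ φ) (c w • (w.map (FreeAlgebra.ι F)).prod) one =
        algebraMap F K (c w) • Yw σ φ w := by
      intro w
      rw [map_smul, LinearMap.smul_apply, ← Y_word (F := F)]
      unfold Y
      rw [algebraMap_smul]
    simp only [h2]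
    unfold lincomb
    rw [← Finset.sum_biUnion]
    · apply Finset.sum_subset_zero_on_sdiff
      · intro w hw
        simp only [mem_biUnion, mem_range]
        refine ⟨w.length, ?_, mem_wordsOf.2 rfl⟩
        exact Nat.lt_succ_of_le (Finset.le_sup (f := List.length) hw)
      · intro w hw
        simp only [mem_sdiff, Finsupp.mem_support_iff, not_not] at hw
        simp only [hw.2, map_zero, zero_smul]
      · intro w _
        rfl
    · intro a _ b _ hab
      rw [Function.onFun, Finset.disjoint_left]
      intro w hwa hwb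
      exact hab ((mem_wordsOf.1 hwa).symm.trans (mem_wordsOf.1 hwb))
  have h3 := coeff_eq_zero σ φ hNE d (fun w => algebraMap F K (c w)) (by
    intro w hw
    have : w ∉ c.support := by
      intro hmem
      exact absurd (Finset.le_sup (f := List.length) hmem) (not_le.2 hw)
    rw [Finsupp.notMem_support_iff.1 this, map_zero]) (by rw [← h1, hf])
  have h4 : c = 0 := by
    ext w
    exact (map_eq_zero _).1 (h3 w)
  rw [hc, h4, Finsupp.sum_zero_index]

/-- `f` is tame of rank at most `m` if `f(T) 1` lies in a stable subspace of dimension at most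
`m`. -/
def Tame (f : FreeAlgebra F (Fin n)) (m : ℕ) : Prop :=
  ∃ W : Submodule K (ℕ → K), Stable σ W ∧ Y σ φ f ∈ W ∧ FiniteDimensional K W ∧
    Module.finrank K W ≤ m

/-- Over a difference field with non-exact `φ`, nonzero tame elements of rank at most `m` are
detected by the first `m` terms. -/
theorem exists_Y_ne_zero
    (hNE : ∀ α : Fin n → K, (∀ i, σ (α i) = α i) → ∀ c : K, ∑ i, α i * φ i = σ c - c →
      ∀ i, α i = 0) (f : FreeAlgebra F (Fin n)) (hf : f ≠ 0) (m : ℕ) (ht : Tame σ φ f m) :
    ∃ k < m, Y σ φ f k ≠ 0 := by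
  by_contra hcon
  push Not at hcon
  obtain ⟨W, hW1, hW2, hW3, hW4⟩ := ht
  have := eq_zero_of_vanish σ hW1 hW4 hW2 fun k hk => hcon k hk
  exact hf (eq_zero_of_Y σ φ hNE _ this)

end Faithful

end Vale.Agent.P314
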