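import Mathlib

/-!
# The difference field `k(X)` with `X ↦ q X`

`q` is an element of infinite multiplicative order.  The functions `X^{i+1}/(1-X^{n+1})` are
linearly independent over the constants modulo exact elements `σ(c) - c`.
-/

namespace Vale.Agent.P314

open Polynomial

section NonExact

variable {k : Type*} [Field k] (q : k) (hq0 : q ≠ 0)

/-- `X ↦ q X` on polynomials -/
noncomputable def tauAux : k[X] ≃ₐ[k] k[X] :=
  algEquivOfCompEqX (C q * X) (C q⁻¹ * X)
    (by rw [mul_comp, C_comp, X_comp, ← mul_assoc, ← C_mul, mul_inv_cancel₀ hq0, C_1, one_mul])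
    (by rw [mul_comp, C_comp, X_comp, ← mul_assoc, ← C_mul, inv_mul_cancel₀ hq0, C_1, one_mul])

theorem tauAux_apply (p : k[X]) : tauAux q hq0 p = p.comp (C q * X) := by
  simp [tauAux, comp_eq_aeval]

variable (K : Type*) [Field K] [Algebra k[X] K] [IsFractionRing k[X] K]

/-- the automorphism `X ↦ q X` of `k(X)` -/
noncomputable def sigma : K ≃+* K :=
  IsFractionRing.ringEquivOfRingEquiv (tauAux q hq0).toRingEquiv

theorem sigma_algebraMap (p : k[X]) :
    sigma q hq0 K (algebraMap k[X] K p) = algebraMap k[X] K (p.comp (C q * X)) := by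
  have := IsFractionRing.ringEquivOfRingEquiv_algebraMap (K := K) (L := K)
    (tauAux q hq0).toRingEquiv p
  rw [sigma, this]
  exact congrArg _ (tauAux_apply q hq0 p)

variable (hq : ∀ m : ℕ, 0 < m → q ^ m ≠ 1)

include hq hq0 in
theorem pow_inj_of {a b : ℕ} (h : q ^ a = q ^ b) : a = b := by
  wlog hab : a ≤ b generalizing a b
  · exact (this h.symm (le_of_not_ge hab)).symm
  by_contra hne
  have hlt : 0 < b - a := by omega
  apply hq _ hlt
  have : q ^ b = q ^ a * q ^ (b - a) := by rw [← pow_add]; congr 1; omega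
  rw [this] at h
  exact (mul_left_cancel₀ (pow_ne_zero a hq0) (by rw [mul_one]; exact h)).symm

/-- reduced fractions -/
theorem exists_coprime_fraction (c : K) :
    ∃ a b : k[X], b ≠ 0 ∧ IsCoprime a b ∧ c = algebraMap k[X] K a / algebraMap k[X] K b := by
  obtain ⟨a, b, h1, h2⟩ := IsFractionRing.exists_reduced_fraction (A := k[X]) c
  refine ⟨a, b, nonZeroDivisors.ne_zero b.2, isRelPrime_iff_isCoprime.1 h1, ?_⟩
  rw [← h2, IsFractionRing.mk'_eq_div]

theorem comp_ne_zero_of (hq0 : q ≠ 0) {p : k[X]} (hp : p ≠ 0) : p.comp (C q * X) ≠ 0 := by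
  rw [← tauAux_apply q hq0]
  exact (map_ne_zero_iff _ (tauAux q hq0).injective).2 hp

include hq0 in
theorem comp_isCoprime {a b : k[X]} (h : IsCoprime a b) :
    IsCoprime (a.comp (C q * X)) (b.comp (C q * X)) := by
  have := h.map (tauAux q hq0 : k[X] →+* k[X])
  simpa [tauAux_apply] using this

include hq hq0 in
/-- a polynomial with `a(qX) = λ a(X)` is a monomial, and `λ = q^m` -/
theorem exists_monomial {a : k[X]} (ha : a ≠ 0) {l : k} (h : a.comp (C q * X) = C l * a) :
    l = q ^ a.natDegree ∧ ∀ m, a.coeff m ≠ 0 → m = a.natDegree := by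
  have h1 : ∀ m, a.coeff m ≠ 0 → q ^ m = l := by
    intro m hm
    have := congrArg (fun p => coeff p m) h
    simp only [comp_C_mul_X_coeff, coeff_C_mul] at this
    rw [mul_comm] at this
    exact mul_right_cancel₀ hm this
  have hl : q ^ a.natDegree = l := h1 _ (by
    rw [coeff_natDegree]; exact leadingCoeff_ne_zero.2 ha)
  exact ⟨hl.symm, fun m hm => pow_inj_of q hq0 hq ((h1 m hm).trans hl.symm)⟩

include hq in
theorem exists_const (c : K) (hc : sigma q hq0 K c = c) :
    ∃ a : k, c = algebraMap k[X] K (C a) := by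
  obtain ⟨a, b, hb, hab, rfl⟩ := exists_coprime_fraction (k := k) K c
  have hinj : Function.Injective (algebraMap k[X] K) := IsFractionRing.injective k[X] K
  have hb' : algebraMap k[X] K b ≠ 0 := by
    rw [Ne, map_eq_zero_iff _ hinj]; exact hb
  have hτb : b.comp (C q * X) ≠ 0 := comp_ne_zero_of q hq0 hb
  have hτb' : algebraMap k[X] K (b.comp (C q * X)) ≠ 0 := by
    rw [Ne, map_eq_zero_iff _ hinj]; exact hτb
  by_cases ha : a = 0
  · exact ⟨0, by simp [ha]⟩
  rw [map_div₀, sigma_algebraMap, sigma_algebraMap, div_eq_div_iff hτb' hb', ← map_mul,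
    ← map_mul] at hc
  have heq : a.comp (C q * X) * b = a * b.comp (C q * X) := hinj hc
  have hdeg : ∀ p : k[X], (p.comp (C q * X)).natDegree = p.natDegree := by
    intro p
    rw [natDegree_comp, natDegree_C_mul_X q hq0, mul_one]
  have key : ∀ p : k[X], p ≠ 0 → p ∣ p.comp (C q * X) → ∃ l, p.comp (C q * X) = C l * p := by
    rintro p hp ⟨r, hr⟩
    have hr0 : r ≠ 0 := by
      rintro rfl
      rw [mul_zero] at hr
      exact comp_ne_zero_of q hq0 hp hr
    have h1 := congrArg natDegree hr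
    rw [hdeg, natDegree_mul hp hr0] at h1
    have h2 : r.natDegree = 0 := by omega
    obtain ⟨l, hl⟩ := natDegree_eq_zero.1 h2
    exact ⟨l, by rw [hr, ← hl, mul_comm]⟩
  have hdb : b ∣ b.comp (C q * X) :=
    hab.symm.dvd_of_dvd_mul_left (Dvd.intro_left _ heq)
  have hda : a ∣ a.comp (C q * X) :=
    hab.dvd_of_dvd_mul_right (Dvd.intro _ heq.symm)
  obtain ⟨l, hl⟩ := key b hb hdb
  obtain ⟨l', hl'⟩ := key a ha hda
  have hll : l' = l := by
    rw [hl, hl'] at heq
    have : C l' * (a * b) = C l * (a * b) := by linear_combination heq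
    exact C_injective (mul_right_cancel₀ (mul_ne_zero ha hb) this)
  obtain ⟨h1, h1'⟩ := exists_monomial q hq0 hq hb hl
  obtain ⟨h2, h2'⟩ := exists_monomial q hq0 hq ha hl'
  have hd : a.natDegree = b.natDegree := pow_inj_of q hq0 hq (by rw [← h1, ← h2, hll])
  have hb0 : b.natDegree = 0 := by
    by_contra hpos
    have hXa : X ∣ a := by
      rw [X_dvd_iff]
      by_contra h0
      exact hpos (by rw [← hd]; exact (h2' 0 h0).symm)
    have hXb : X ∣ b := by
      rw [X_dvd_iff]
      by_contra h0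
      exact hpos (h1' 0 h0).symm
    exact not_isUnit_X (hab.isUnit_of_dvd' hXa hXb)
  obtain ⟨u, hu⟩ := natDegree_eq_zero.1 hb0
  obtain ⟨v, hv⟩ := natDegree_eq_zero.1 (hd.trans hb0)
  have hu0 : u ≠ 0 := by
    rintro rfl
    exact hb (by rw [← hu, C_0])
  refine ⟨v / u, ?_⟩
  rw [div_eq_iff hb', ← map_mul, ← hu, ← hv, ← C_mul, div_mul_cancel₀ _ hu0]

/-- infinitely many roots -/
theorem exists_not_root {Ω : Type*} [Field Ω] [Algebra k Ω] {B : k[X]} (hB : B ≠ 0) (r β : Ω)
    (hr0 : r ≠ 0) (hr : ∀ m : ℕ, 0 < m → r ^ m ≠ 1) (hβ : β ≠ 0) :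
    ∃ j : ℕ, aeval (r ^ j * β) B ≠ 0 := by
  by_contra hcon
  push Not at hcon
  have hinj : Function.Injective fun j : ℕ => r ^ j * β := by
    intro a b hab
    exact pow_inj_of r hr0 hr (mul_right_cancel₀ hβ hab)
  have hB' : B.map (algebraMap k Ω) ≠ 0 := (Polynomial.map_ne_zero_iff
    (algebraMap k Ω).injective).2 hB
  apply hB'
  apply Polynomial.eq_zero_of_infinite_isRoot
  refine (Set.infinite_range_of_injective hinj).mono ?_
  rintro _ ⟨j, rfl⟩
  simp only [Set.mem_ofPred_eq, IsRoot.def, eval_map_algebraMap]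
  exact hcon j

include hq in
theorem nonexact (n : ℕ) (α : Fin n → K) (hα : ∀ i, sigma q hq0 K (α i) = α i) (c : K)
    (h : ∑ i, α i * (algebraMap k[X] K (X ^ (i.1 + 1)) / algebraMap k[X] K (1 - X ^ (n + 1))) =
      sigma q hq0 K c - c) (i : Fin n) : α i = 0 := by
  classical
  have hinj : Function.Injective (algebraMap k[X] K) := IsFractionRing.injective k[X] K
  choose a ha using fun i => exists_const q hq0 K hq (α i) (hα i)
  obtain ⟨A, B, hB, hAB, rfl⟩ := exists_coprime_fraction (k := k) K c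
  set P : k[X] := 1 - X ^ (n + 1) with hP
  set g : k[X] := ∑ i, C (a i) * X ^ (i.1 + 1) with hg
  have hPdeg : P.degree = ((n + 1 : ℕ) : WithBot ℕ) := by
    have : P = -(X ^ (n + 1) - C 1) := by rw [hP, C_1]; ring
    rw [this, degree_neg, degree_X_pow_sub_C (Nat.succ_pos n)]
  have hP0 : P ≠ 0 := by
    intro h0
    rw [h0, degree_zero] at hPdeg
    exact absurd hPdeg (WithBot.natCast_ne_bot (n + 1)).symm
  have hP' : algebraMap k[X] K P ≠ 0 := by rw [Ne, map_eq_zero_iff _ hinj]; exact hP0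
  have hb' : algebraMap k[X] K B ≠ 0 := by rw [Ne, map_eq_zero_iff _ hinj]; exact hB
  have hτb : B.comp (C q * X) ≠ 0 := comp_ne_zero_of q hq0 hB
  have hτb' : algebraMap k[X] K (B.comp (C q * X)) ≠ 0 := by
    rw [Ne, map_eq_zero_iff _ hinj]; exact hτb
  have hsum : ∑ i, α i * (algebraMap k[X] K (X ^ (i.1 + 1)) / algebraMap k[X] K P) =
      algebraMap k[X] K g / algebraMap k[X] K P := by
    rw [hg, map_sum, Finset.sum_div]
    refine Finset.sum_congr rfl fun i _ => ?_
    rw [ha i, map_mul, mul_div_assoc]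
  rw [hsum, map_div₀, sigma_algebraMap, sigma_algebraMap] at h
  have heq : g * (B * B.comp (C q * X)) = P * (A.comp (C q * X) * B - A * B.comp (C q * X)) := by
    apply hinj
    simp only [map_mul, map_sub]
    field_simp at h
    linear_combination h
  -- divisibilities
  have hd1 : B ∣ P * B.comp (C q * X) := by
    have : B ∣ A * (P * B.comp (C q * X)) := by
      refine ⟨P * A.comp (C q * X) - g * B.comp (C q * X), ?_⟩
      linear_combination heq
    exact hAB.symm.dvd_of_dvd_mul_left this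
  have hd2 : B.comp (C q * X) ∣ P * B := by
    have : B.comp (C q * X) ∣ A.comp (C q * X) * (P * B) := by
      refine ⟨g * B + P * A, ?_⟩
      linear_combination -heq
    exact (comp_isCoprime q hq0 hAB).symm.dvd_of_dvd_mul_left this
  let Ω := AlgebraicClosure k
  set r : Ω := algebraMap k Ω q with hr
  have hr0 : r ≠ 0 := by rw [hr, Ne, map_eq_zero]; exact hq0
  have hrm : ∀ m : ℕ, 0 < m → r ^ m ≠ 1 := by
    intro m hm h1
    rw [hr, ← map_pow, ← map_one (algebraMap k Ω)] at h1
    exact hq m hm ((algebraMap k Ω).injective h1)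
  have hcomp : ∀ (y : Ω) (p : k[X]), aeval y (p.comp (C q * X)) = aeval (r * y) p := by
    intro y p
    rw [aeval_comp]
    simp [hr]
  have hPval : ∀ y : Ω, aeval y P = 1 - y ^ (n + 1) := by
    intro y; simp [hP]
  have hroot : ∀ β : Ω, aeval β P = 0 → β ≠ 0 ∧ β ^ (n + 1) = 1 := by
    intro β hβ
    rw [hPval] at hβ
    have h1 : β ^ (n + 1) = 1 := (sub_eq_zero.1 hβ).symm
    refine ⟨?_, h1⟩
    rintro rfl
    simp at h1
  have hPr : ∀ β : Ω, aeval β P = 0 → ∀ j : ℕ, 0 < j → aeval (r ^ j * β) P ≠ 0 := by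
    intro β hβ j hj h0
    rw [hPval, mul_pow, (hroot β hβ).2, mul_one, ← pow_mul] at h0
    exact hrm _ (Nat.mul_pos hj (Nat.succ_pos n)) (sub_eq_zero.1 h0).symm
  have hPr' : ∀ β : Ω, aeval β P = 0 → ∀ j : ℕ, 0 < j → aeval (r⁻¹ ^ j * β) P ≠ 0 := by
    intro β hβ j hj h0
    rw [hPval, mul_pow, (hroot β hβ).2, mul_one, ← pow_mul] at h0
    have h1 := (sub_eq_zero.1 h0).symm
    rw [inv_pow, inv_eq_one] at h1
    exact hrm _ (Nat.mul_pos hj (Nat.succ_pos n)) h1
  have hc1 : IsCoprime P B := by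
    refine (Polynomial.isCoprime_iff_aeval_ne_zero_of_isAlgClosed k Ω P B).2 ?_
    intro β
    by_contra hcon
    push Not at hcon
    obtain ⟨hβP, hβB⟩ := hcon
    have hrinv0 : r⁻¹ ≠ 0 := inv_ne_zero hr0
    have hrinv : ∀ m : ℕ, 0 < m → r⁻¹ ^ m ≠ 1 := by
      intro m hm h1
      rw [inv_pow, inv_eq_one] at h1
      exact hrm m hm h1
    obtain ⟨j, hj⟩ := exists_not_root hB r⁻¹ β hrinv0 hrinv (hroot β hβP).1
    apply hj
    clear hj
    induction j with
    | zero => simpa using hβB
    | succ j ih =>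
      obtain ⟨u, hu⟩ := hd2
      have h2 := congrArg (aeval (r⁻¹ ^ (j + 1) * β)) hu
      rw [map_mul, map_mul, hcomp] at h2
      have h3 : r * (r⁻¹ ^ (j + 1) * β) = r⁻¹ ^ j * β := by
        rw [pow_succ', mul_assoc, mul_inv_cancel_left₀ hr0]
      rw [h3, ih, zero_mul] at h2
      rcases mul_eq_zero.1 h2 with h4 | h4
      · exact absurd h4 (hPr' β hβP (j + 1) (Nat.succ_pos j))
      · exact h4
  have hc2 : IsCoprime P (B.comp (C q * X)) := by
    refine (Polynomial.isCoprime_iff_aeval_ne_zero_of_isAlgClosed k Ω P _).2 ?_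
    intro β
    by_contra hcon
    push Not at hcon
    obtain ⟨hβP, hβB⟩ := hcon
    rw [hcomp] at hβB
    obtain ⟨j, hj⟩ := exists_not_root hB r (r * β) hr0 hrm (mul_ne_zero hr0 (hroot β hβP).1)
    apply hj
    clear hj
    induction j with
    | zero => simpa using hβB
    | succ j ih =>
      obtain ⟨u, hu⟩ := hd1
      have h2 := congrArg (aeval (r ^ j * (r * β))) hu
      rw [map_mul, map_mul, hcomp, ih, zero_mul] at h2
      have h3 : r * (r ^ j * (r * β)) = r ^ (j + 1) * (r * β) := by ring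
      have h5 : r ^ j * (r * β) = r ^ (j + 1) * β := by ring
      rw [h3] at h2
      rcases mul_eq_zero.1 h2 with h4 | h4
      · rw [h5] at h4
        exact absurd h4 (hPr β hβP (j + 1) (Nat.succ_pos j))
      · exact h4
  have hPg : P ∣ g := by
    have : P ∣ g * (B * B.comp (C q * X)) := ⟨_, heq⟩
    exact (hc1.mul_right hc2).dvd_of_dvd_mul_right this
  have hg0 : g = 0 := by
    by_contra hne
    have h1 := degree_le_of_dvd hPg hne
    rw [hPdeg] at h1
    have h2 : g.degree ≤ (n : WithBot ℕ) := by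
      rw [hg]
      refine (degree_sum_le _ _).trans (Finset.sup_le fun j _ => ?_)
      refine (degree_C_mul_X_pow_le _ _).trans ?_
      exact_mod_cast j.2
    have h3 := h1.trans h2
    have : (n + 1 : ℕ) ≤ n := by exact_mod_cast h3
    omega
  have hcoef : a i = 0 := by
    have h1 := congrArg (fun p => coeff p (i.1 + 1)) hg0
    simp only [hg, finsetSum_coeff, coeff_C_mul_X_pow, coeff_zero, add_left_inj] at h1
    rw [Finset.sum_eq_single i] at h1
    · simpa using h1
    · intro j _ hj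
      rw [if_neg]
      intro h2
      exact hj (Fin.ext h2.symm)
    · intro h2
      exact absurd (Finset.mem_univ i) h2
  rw [ha i, hcoef, C_0, map_zero]

end NonExact

end Vale.Agent.P314
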