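import Vale.Agent.P314.Transfer
import Vale.Agent.P314.ABPStable
import Vale.Agent.P314.NonExact

/-!
# The fraction-free sequence of a nonzero formula is nonzero within the first terms
-/

namespace Vale.Agent.P314

open Finset Polynomial

section Generic

variable (F : Type*) [Field F] {n : ℕ}

theorem ratX_ne_zero : (RatFunc.X : RatFunc F) ≠ 0 := RatFunc.X_ne_zero

theorem ratX_pow_ne_one (m : ℕ) (hm : 0 < m) : (RatFunc.X : RatFunc F) ^ m ≠ 1 := by
  intro h
  rw [← RatFunc.algebraMap_X, ← map_pow, ← map_one (algebraMap F[X] (RatFunc F))] at h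
  have h1 := RatFunc.algebraMap_injective F h
  have h2 := congrArg natDegree h1
  rw [natDegree_X_pow, natDegree_one] at h2
  omega

/-- the difference field -/
abbrev KK := FractionRing (RatFunc F)[X]

/-- its automorphism -/
noncomputable def sg : KK F ≃+* KK F := sigma (RatFunc.X : RatFunc F) (ratX_ne_zero F) (KK F)

/-- the functions `φ_i` -/
noncomputable def ph (i : Fin n) : KK F :=
  algebraMap (RatFunc F)[X] (KK F) (X ^ (i.1 + 1)) /
    algebraMap (RatFunc F)[X] (KK F) (1 - X ^ (n + 1))

theorem sg_fix (a : F) : sg F (algebraMap F (KK F) a) = algebraMap F (KK F) a := by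
  rw [IsScalarTower.algebraMap_apply F (RatFunc F)[X] (KK F), sg, sigma_algebraMap]
  congr 1
  rw [IsScalarTower.algebraMap_apply F (RatFunc F) (RatFunc F)[X], Polynomial.algebraMap_eq,
    C_comp]

theorem sg_iter (j : ℕ) (p : (RatFunc F)[X]) :
    (sg F)^[j] (algebraMap (RatFunc F)[X] (KK F) p) =
      algebraMap (RatFunc F)[X] (KK F) (p.comp (C (RatFunc.X ^ j) * X)) := by
  induction j with
  | zero => simp
  | succ j ih =>
    rw [Function.iterate_succ_apply', ih, sg, sigma_algebraMap, comp_assoc, mul_comp, C_comp,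
      X_comp, ← mul_assoc, ← C_mul, ← pow_succ]

/-- the embedding of bivariate polynomials -/
noncomputable def thK : F[X][X] →ₐ[F] KK F :=
  (IsScalarTower.toAlgHom F (RatFunc F)[X] (KK F)).comp
    (Polynomial.mapAlgHom (IsScalarTower.toAlgHom F F[X] (RatFunc F)))

theorem thK_apply (p : F[X][X]) :
    thK F p = algebraMap (RatFunc F)[X] (KK F) (p.map (algebraMap F[X] (RatFunc F))) := by
  rfl

theorem thK_injective : Function.Injective (thK F) := by
  intro p p' h
  rw [thK_apply, thK_apply] at h
  exact Polynomial.map_injective _ (RatFunc.algebraMap_injective F)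
    (IsFractionRing.injective (RatFunc F)[X] (KK F) h)

theorem thK_bP (j : ℕ) : thK F (bP F n j) =
    algebraMap (RatFunc F)[X] (KK F) (1 - (C (RatFunc.X ^ j) * X) ^ (n + 1)) := by
  rw [thK_apply, bP]
  simp [Polynomial.map_sub, Polynomial.map_mul, Polynomial.map_pow]

theorem thK_bp (i : Fin n) (j : ℕ) : thK F (bp F i j) =
    algebraMap (RatFunc F)[X] (KK F) ((C (RatFunc.X ^ j) * X) ^ (i.1 + 1)) := by
  rw [thK_apply, bp]
  simp [Polynomial.map_mul, Polynomial.map_pow]

theorem bP_ne_zero (j : ℕ) : bP F n j ≠ 0 := by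
  intro h
  have := congrArg (Polynomial.eval 0) h
  simp [bP] at this

theorem sg_ph (i : Fin n) (j : ℕ) : (sg F)^[j] (ph F i) * thK F (bP F n j) = thK F (bp F i j) := by
  have h1 : (sg F)^[j] (ph F i) = algebraMap (RatFunc F)[X] (KK F)
      ((C (RatFunc.X ^ j) * X) ^ (i.1 + 1)) / algebraMap (RatFunc F)[X] (KK F)
        (1 - (C (RatFunc.X ^ j) * X) ^ (n + 1)) := by
    have h2 : ∀ a b : KK F, (sg F)^[j] (a / b) = (sg F)^[j] a / (sg F)^[j] b := by
      induction j with
      | zero => intro a b; rfl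
      | succ j ih =>
        intro a b
        rw [Function.iterate_succ_apply', ih, map_div₀, Function.iterate_succ_apply',
          Function.iterate_succ_apply']
    rw [ph, h2, sg_iter, sg_iter]
    simp
  rw [h1, thK_bP, thK_bp, div_mul_cancel₀]
  rw [← thK_bP, Ne, map_eq_zero_iff _ (thK_injective F)]
  exact bP_ne_zero F j

theorem op_eq_opS : (op (F := F) (sg F) (ph F (n := n))) =
    opS (F := F) (A := KK F) (fun i j => (sg F)^[j] (ph F i)) := by
  apply FreeAlgebra.hom_ext
  funext i
  simp only [Function.comp_apply, op_ι, opS, FreeAlgebra.lift_ι_apply]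
  rfl

/-- tame elements of the free algebra, for the difference field `KK F` -/
def TameF (f : FreeAlgebra F (Fin n)) (m : ℕ) : Prop := Tame (sg F) (ph F (n := n)) f m

theorem tameF_formula (p : NCFormula F n) : TameF F p.toPoly (p.size + 1) :=
  exists_stable (sg F) (ph F (n := n)) (sg_fix F) p

theorem tameF_branching (P : NCBranching F n) : TameF F P.toPoly P.size :=
  exists_stable_abp (sg F) (ph F (n := n)) (sg_fix F) P

theorem TameF.mono {f : FreeAlgebra F (Fin n)} {m m' : ℕ} (h : TameF F f m) (hm : m ≤ m') :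
    TameF F f m' := by
  obtain ⟨W, h1, h2, h3, h4⟩ := h
  exact ⟨W, h1, h2, h3, h4.trans hm⟩

theorem exists_ff_ne_zero (f : FreeAlgebra F (Fin n)) (hf : f ≠ 0) (m : ℕ) (ht : TameF F f m) :
    ∃ k < m, opF (bP F n) (fun i => bp F i) f (initSeq F n) k ≠ 0 := by
  obtain ⟨k, hk, hne⟩ := exists_Y_ne_zero (F := F) (sg F) (ph F (n := n))
    (fun α hα c hc i => nonexact (RatFunc.X : RatFunc F) (ratX_ne_zero F) (KK F)
      (ratX_pow_ne_one F) n α hα c hc i) f hf m ht
  refine ⟨k, hk, fun h0 => hne ?_⟩
  have h1 := transfer (thK F) (bP F n) (fun i => bp F i) (fun i j => (sg F)^[j] (ph F i))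
    (sg_ph F) f (initSeq F n) one (fun k => by
      rw [initSeq, map_prod, one_apply, mul_one]) k
  rw [h0, map_zero] at h1
  rw [Y, op_eq_opS]
  refine (mul_eq_zero.1 h1.symm).resolve_left (Finset.prod_ne_zero_iff.2 ?_)
  intro m _
  rw [Ne, map_eq_zero_iff _ (thK_injective F)]
  exact bP_ne_zero F m

end Generic

end Vale.Agent.P314
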