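import Vale.Agent.P314.Defs

/-!
# The explicit hitting tuple (0/1 matrices)
-/

namespace Vale.Agent.P314

/-- number of time steps -/
def parM (s : ℕ) : ℕ := s + 1

/-- start time (exceeds all degrees in `z`) -/
def parB (n s : ℕ) : ℕ := (n + 1) * (s + 1) ^ 2

/-- order of nilpotency -/
def parN (n s : ℕ) : ℕ := parB n s * ((n + 1) * (s + 1))

/-- dimension of the matrices -/
def parD (n s : ℕ) : ℕ := parM s * parN n s

/-- The condition for the entry in row `r` and column `c` of the `i`-th matrix to be `1`:
writing `r = k N + a` and `c = j N + a'` this says `j < k` and `a = a' + (B + j) e` with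
`e ≡ i + 1 mod n + 1`. -/
def HitCond (n s i r c : ℕ) : Prop :=
  c / parN n s < r / parN n s ∧
    ∃ e < parN n s, r % parN n s = c % parN n s + (parB n s + c / parN n s) * e ∧
      e % (n + 1) = i + 1

instance (n s i r c : ℕ) : Decidable (HitCond n s i r c) := by
  unfold HitCond; infer_instance

/-- The explicit tuple of 0/1 matrices. -/
def hitTuple (F : Type*) [Field F] (n s : ℕ) : MatTuple F n where
  d := parD n s
  mat i := Matrix.of fun r c => if HitCond n s i r c then 1 else 0

end Vale.Agent.P314
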