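import Vale.Agent.P314.Generic
import Vale.Agent.P314.Tuple

/-!
# The explicit 0/1 tuple hits every nonzero formula
-/

namespace Vale.Agent.P314

open Finset Polynomial

section Hit

variable (F : Type*) [Field F] {n : ℕ}

/-- the constant sequence `1` of power series -/
noncomputable def oneS : ℕ → PowerSeries F := fun _ => 1

/-- `z^{b(i+1)}/(1-z^{b(n+1)})` as a power series with coefficients `0`, `1` -/
noncomputable def psi (n b i : ℕ) : PowerSeries F :=
  PowerSeries.mk fun c => if ∃ e ≤ c, c = b * e ∧ e % (n + 1) = i + 1 then 1 else 0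

variable {F} in
theorem psi_mul (n b i : ℕ) (hb : 0 < b) (hi : i < n) :
    psi F n b i * (1 - PowerSeries.X ^ (b * (n + 1))) = PowerSeries.X ^ (b * (i + 1)) := by
  ext c
  rw [mul_sub, mul_one, map_sub, PowerSeries.coeff_mul_X_pow', PowerSeries.coeff_X_pow]
  simp only [psi, PowerSeries.coeff_mk]
  have hex : ∀ c, (∃ e ≤ c, c = b * e ∧ e % (n + 1) = i + 1) ↔
      (b ∣ c ∧ (c / b) % (n + 1) = i + 1) := by
    intro c
    constructor
    · rintro ⟨e, _, rfl, he⟩
      exact ⟨Dvd.intro _ rfl, by rw [Nat.mul_div_cancel_left _ hb]; exact he⟩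
    · rintro ⟨⟨e, rfl⟩, he⟩
      rw [Nat.mul_div_cancel_left _ hb] at he
      exact ⟨e, Nat.le_mul_of_pos_left _ hb, rfl, he⟩
  simp only [hex]
  by_cases hdvd : b ∣ c
  · obtain ⟨e, rfl⟩ := hdvd
    by_cases he : n + 1 ≤ e
    · have h1 : b * (n + 1) ≤ b * e := Nat.mul_le_mul_left _ he
      have h2 : b * e - b * (n + 1) = b * (e - (n + 1)) := by rw [Nat.mul_sub]
      rw [if_pos h1, h2]
      have h3 : (e - (n + 1)) % (n + 1) = e % (n + 1) := by
        rw [Nat.mod_eq_sub_mod he]
      have h4 : b * e ≠ b * (i + 1) := by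
        intro h
        have := Nat.eq_of_mul_eq_mul_left hb h
        omega
      rw [if_neg h4]
      simp only [Nat.mul_div_cancel_left _ hb, dvd_mul_right, true_and, h3, sub_self]
    · have h1 : ¬ b * (n + 1) ≤ b * e := by
        intro h
        exact he (Nat.le_of_mul_le_mul_left h hb)
      rw [if_neg h1, sub_zero]
      simp only [Nat.mul_div_cancel_left _ hb, dvd_mul_right, true_and]
      rw [Nat.mod_eq_of_lt (by omega)]
      congr 1
      apply propext
      constructor
      · rintro rfl; rfl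
      · intro h
        exact Nat.eq_of_mul_eq_mul_left hb h
  · have h1 : ¬ (b ∣ c ∧ (c / b) % (n + 1) = i + 1) := fun h => hdvd h.1
    rw [if_neg h1]
    have h2 : c ≠ b * (i + 1) := fun h => hdvd (h ▸ Dvd.intro _ rfl)
    rw [if_neg h2]
    split_ifs with h3 h4
    · exfalso
      apply hdvd
      have h5 : b ∣ b * (n + 1) := Dvd.intro _ rfl
      have := (Nat.dvd_add_right h5).2 h4.1
      rwa [Nat.add_sub_cancel' h3] at this
    · simp
    · simp

/-- substitution `s = z^B` followed by the embedding into power series -/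
noncomputable def thS (B : ℕ) : F[X][X] →ₐ[F] PowerSeries F :=
  (Polynomial.coeToPowerSeries.algHom F).comp
    ((Polynomial.aeval (X ^ B : F[X])).restrictScalars F)

theorem thS_apply (B : ℕ) (p : F[X][X]) :
    thS F B p = ((p.eval (X ^ B : F[X]) : F[X]) : PowerSeries F) := by
  simp [thS, Polynomial.coeToPowerSeries.algHom_apply, coe_aeval_eq_eval]

theorem thS_bP (B j : ℕ) : thS F B (bP F n j) = 1 - PowerSeries.X ^ ((B + j) * (n + 1)) := by
  rw [thS_apply, bP]
  simp only [eval_sub, eval_one, eval_pow, eval_mul, eval_C, eval_X, ← pow_add, ← pow_mul]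
  rw [Nat.add_comm j B]
  simp

theorem thS_bp (B : ℕ) (i : Fin n) (j : ℕ) :
    thS F B (bp F i j) = PowerSeries.X ^ ((B + j) * (i.1 + 1)) := by
  rw [thS_apply, bp]
  simp only [eval_pow, eval_mul, eval_C, eval_X, ← pow_add, ← pow_mul]
  rw [Nat.add_comm j B]
  simp

theorem exists_coeff_ne_zero (f : FreeAlgebra F (Fin n)) (hf : f ≠ 0) (s : ℕ)
    (ht : TameF F f (s + 1)) (B : ℕ) (hB : (n + 1) * (s * s) < B) :
    ∃ k ≤ s, ∃ c < B * ((n + 1) * s + 1), PowerSeries.coeff c
      (opS (F := F) (fun (i : Fin n) j => psi F n (B + j) i.1) f (oneS F) k) ≠ 0 := by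
  obtain ⟨k, hk, hne⟩ := exists_ff_ne_zero F f hf (s + 1) ht
  set x := opF (bP F n) (fun i => bp F i) f (initSeq F n) k with hx
  have hks : k ≤ s := Nat.lt_succ_iff.1 hk
  have hbd : Bd x ((n + 1) * s) ((n + 1) * (s * s)) :=
    (bdSeq_opF (bdSeq_initSeq n) f k).mono (Nat.mul_le_mul_left _ hks)
      (Nat.mul_le_mul_left _ (Nat.mul_le_mul hks hks))
  obtain ⟨c, hc, hcne⟩ := exists_coeff_eval_ne_zero B _ _ x hne hbd hB
  refine ⟨k, hks, ?_⟩
  by_contra hcon
  push Not at hcon
  have h1 := transfer (thS F B) (bP F n) (fun i => bp F i)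
    (fun (i : Fin n) j => psi F n (B + j) i.1) (fun i j => by
      rw [thS_bP, thS_bp]
      exact psi_mul n (B + j) i.1 (by omega) i.2) f (initSeq F n) (oneS F) (fun k => by
      rw [initSeq, map_prod, oneS, mul_one]) k
  rw [← hx, thS_apply] at h1
  have h2 : (PowerSeries.X : PowerSeries F) ^ (B * ((n + 1) * s + 1)) ∣
      opS (F := F) (fun (i : Fin n) j => psi F n (B + j) i.1) f (oneS F) k :=
    PowerSeries.X_pow_dvd_iff.2 fun m hm => hcon m hm
  have h3 : (PowerSeries.X : PowerSeries F) ^ (B * ((n + 1) * s + 1)) ∣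
      ((x.eval (X ^ B : F[X]) : F[X]) : PowerSeries F) := by
    rw [h1]
    exact h2.mul_left _
  have h4 := PowerSeries.X_pow_dvd_iff.1 h3 c hc
  rw [Polynomial.coeff_coe] at h4
  exact hcne h4

/-! ### matrices -/

/-- reading off coefficients -/
noncomputable def rd (M N : ℕ) (x : ℕ → PowerSeries F) : Fin (M * N) → F :=
  fun r => PowerSeries.coeff (r.1 % N) (x (r.1 / N))

theorem sum_fin_mul (M N : ℕ) (hN : 0 < N) (g : ℕ → ℕ → F) :
    ∑ r : Fin (M * N), g (r.1 / N) (r.1 % N) = ∑ j ∈ range M, ∑ c ∈ range N, g j c := by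
  rw [Fin.sum_univ_eq_sum_range (fun r => g (r / N) (r % N)) (M * N)]
  induction M with
  | zero => simp
  | succ M ih =>
    rw [Nat.succ_mul, Finset.sum_range_add, ih, Finset.sum_range_succ]
    congr 1
    refine Finset.sum_congr rfl fun c hc => ?_
    have hc' := Finset.mem_range.1 hc
    rw [Nat.add_comm, Nat.add_mul_div_right _ _ hN, Nat.div_eq_of_lt hc', Nat.zero_add,
      Nat.add_mul_mod_self_right, Nat.mod_eq_of_lt hc']

theorem rd_sumop (M N B : ℕ) (hN : 0 < N) (hB : 0 < B) (i : ℕ) (x : ℕ → PowerSeries F)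
    (T : Matrix (Fin (M * N)) (Fin (M * N)) F)
    (hT : ∀ r c, T r c = if (c.1 / N < r.1 / N ∧ ∃ e < N, r.1 % N = c.1 % N + (B + c.1 / N) * e ∧
      e % (n + 1) = i + 1) then 1 else 0) :
    rd F M N (sumop (fun j => psi F n (B + j) i) x) = T.mulVec (rd F M N x) := by
  classical
  funext r
  have hM : r.1 / N < M := by
    rw [Nat.div_lt_iff_lt_mul hN]
    exact r.2
  simp only [rd, sumop_apply, map_sum, Matrix.mulVec, dotProduct, hT]
  have h1 : ∑ c : Fin (M * N), (if (c.1 / N < r.1 / N ∧ ∃ e < N, r.1 % N = c.1 % N +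
      (B + c.1 / N) * e ∧ e % (n + 1) = i + 1) then (1 : F) else 0) *
        PowerSeries.coeff (c.1 % N) (x (c.1 / N)) =
      ∑ j ∈ range M, ∑ c ∈ range N, (if (j < r.1 / N ∧ ∃ e < N, r.1 % N = c +
      (B + j) * e ∧ e % (n + 1) = i + 1) then (1 : F) else 0) *
        PowerSeries.coeff c (x j) :=
    sum_fin_mul F M N hN fun j c => (if (j < r.1 / N ∧ ∃ e < N, r.1 % N = c +
      (B + j) * e ∧ e % (n + 1) = i + 1) then (1 : F) else 0) *
        PowerSeries.coeff c (x j)
  rw [h1]
  have h2 : ∑ j ∈ range M, ∑ c ∈ range N, (if (j < r.1 / N ∧ ∃ e < N, r.1 % N = c +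
      (B + j) * e ∧ e % (n + 1) = i + 1) then (1 : F) else 0) *
        PowerSeries.coeff c (x j) = ∑ j ∈ range (r.1 / N), ∑ c ∈ range N,
      (if (∃ e < N, r.1 % N = c + (B + j) * e ∧ e % (n + 1) = i + 1) then (1 : F) else 0) *
        PowerSeries.coeff c (x j) := by
    symm
    apply Finset.sum_subset_zero_on_sdiff
    · intro j hj
      rw [mem_range] at *
      omega
    · intro j hj
      have hj' : ¬ j < r.1 / N := by
        simp only [mem_sdiff, mem_range] at hj
        exact hj.2
      simp [hj']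
    · intro j hj
      have hj' : j < r.1 / N := mem_range.1 hj
      simp [hj']
  rw [h2]
  refine Finset.sum_congr rfl fun j _ => ?_
  rw [PowerSeries.coeff_mul, Finset.Nat.sum_antidiagonal_eq_sum_range_succ_mk,
    ← Finset.sum_range_reflect]
  have hr : r.1 % N < N := Nat.mod_lt _ hN
  set a := r.1 % N with ha
  have h3 : ∑ c ∈ range N, (if (∃ e < N, a = c + (B + j) * e ∧ e % (n + 1) = i + 1) then (1 : F)
      else 0) * PowerSeries.coeff c (x j) = ∑ c ∈ range (a + 1),
      (if (∃ e < N, a = c + (B + j) * e ∧ e % (n + 1) = i + 1) then (1 : F)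
      else 0) * PowerSeries.coeff c (x j) := by
    symm
    apply Finset.sum_subset_zero_on_sdiff
    · intro c hc
      rw [mem_range] at *
      omega
    · intro c hc
      simp only [mem_sdiff, mem_range] at hc
      rw [if_neg, zero_mul]
      rintro ⟨e, _, he, _⟩
      omega
    · intro c _
      rfl
  rw [h3]
  refine Finset.sum_congr rfl fun c hc => ?_
  have hc' : c ≤ a := Nat.lt_succ_iff.1 (mem_range.1 hc)
  have h4 : a + 1 - 1 - c = a - c := by omega
  have h5 : a - (a - c) = c := by omega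
  rw [h4, h5]
  congr 1
  simp only [psi, PowerSeries.coeff_mk]
  congr 1
  apply propext
  constructor
  · rintro ⟨e, he, h6, h7⟩
    refine ⟨e, by omega, by omega, h7⟩
  · rintro ⟨e, he, h6, h7⟩
    have : e ≤ (B + j) * e := Nat.le_mul_of_pos_left _ (by omega)
    exact ⟨e, by omega, by omega, h7⟩

theorem rd_op (M N B : ℕ) (hN : 0 < N) (hB : 0 < B)
    (T : Fin n → Matrix (Fin (M * N)) (Fin (M * N)) F)
    (hT : ∀ i r c, T i r c = if (c.1 / N < r.1 / N ∧ ∃ e < N, r.1 % N = c.1 % N +
      (B + c.1 / N) * e ∧ e % (n + 1) = i.1 + 1) then 1 else 0)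
    (f : FreeAlgebra F (Fin n)) : ∀ x : ℕ → PowerSeries F,
    rd F M N (opS (F := F) (fun (i : Fin n) j => psi F n (B + j) i.1) f x) =
      (FreeAlgebra.lift F T f).mulVec (rd F M N x) := by
  induction f using FreeAlgebra.induction with
  | grade0 a =>
    intro x
    simp only [AlgHom.commutes, Module.algebraMap_end_apply]
    rw [Algebra.algebraMap_eq_smul_one, Matrix.smul_mulVec, Matrix.one_mulVec]
    funext r
    simp [rd]
  | grade1 i =>
    intro x
    simp only [opS, FreeAlgebra.lift_ι_apply]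
    exact rd_sumop F M N B hN hB i.1 x (T i) (hT i)
  | mul a b ha hb =>
    intro x
    rw [map_mul, map_mul, Module.End.mul_apply, ha, hb, Matrix.mulVec_mulVec]
  | add a b ha hb =>
    intro x
    rw [map_add, map_add, LinearMap.add_apply, Matrix.add_mulVec, ← ha, ← hb]
    funext r
    simp [rd]

theorem coeff_eq_zero_of_lift (M N B : ℕ) (hN : 0 < N) (hB : 0 < B)
    (T : Fin n → Matrix (Fin (M * N)) (Fin (M * N)) F)
    (hT : ∀ i r c, T i r c = if (c.1 / N < r.1 / N ∧ ∃ e < N, r.1 % N = c.1 % N +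
      (B + c.1 / N) * e ∧ e % (n + 1) = i.1 + 1) then 1 else 0)
    (f : FreeAlgebra F (Fin n)) (h0 : FreeAlgebra.lift F T f = 0) (k c : ℕ) (hk : k < M)
    (hc : c < N) : PowerSeries.coeff c
      (opS (F := F) (fun (i : Fin n) j => psi F n (B + j) i.1) f (oneS F) k) = 0 := by
  have h1 := rd_op F M N B hN hB T hT f (oneS F)
  rw [h0, Matrix.zero_mulVec] at h1
  have hlt : k * N + c < M * N := by
    have : (k + 1) * N ≤ M * N := Nat.mul_le_mul_right _ hk
    rw [Nat.add_mul, Nat.one_mul] at this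
    omega
  have h3 := congrFun h1 ⟨k * N + c, hlt⟩
  simp only [rd, Pi.zero_apply] at h3
  rw [Nat.add_comm, Nat.add_mul_div_right _ _ hN, Nat.div_eq_of_lt hc, Nat.zero_add,
    Nat.add_mul_mod_self_right, Nat.mod_eq_of_lt hc] at h3
  exact h3

/-- The explicit tuple hits every nonzero tame element. -/
theorem hitTuple_eval_ne_zero (n s : ℕ) (f : FreeAlgebra F (Fin n)) (hf : f ≠ 0)
    (ht : TameF F f (s + 1)) : (hitTuple F n s).eval f ≠ 0 := by
  have hB : (n + 1) * (s * s) < parB n s := by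
    unfold parB
    nlinarith
  obtain ⟨k, hk, c, hc, hne⟩ := exists_coeff_ne_zero F f hf s ht (parB n s) hB
  intro h0
  apply hne
  have hB0 : 0 < parB n s := by unfold parB; positivity
  have hN0 : 0 < parN n s := by unfold parN; positivity
  have hcN : c < parN n s := by
    refine hc.trans_le ?_
    unfold parN
    refine Nat.mul_le_mul_left _ ?_
    nlinarith
  exact coeff_eq_zero_of_lift F (parM s) (parN n s) (parB n s) hN0 hB0 (hitTuple F n s).mat
    (fun i r c => rfl) f h0 k c (by unfold parM; omega) hcN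

theorem isHittingSet_hitTuple (n s : ℕ) :
    IsHittingSet [hitTuple F n s] (formulaPolys F n s) := by
  rintro f ⟨p, hp, rfl⟩ hf
  exact ⟨hitTuple F n s, List.mem_singleton.2 rfl, hitTuple_eval_ne_zero F n s p.toPoly hf
    ((tameF_formula F p).mono F (by omega))⟩

/-- The same tuple hits every nonzero polynomial computed by a branching program with at most
`s + 1` vertices. -/
theorem isHittingSet_hitTuple_branching (n s : ℕ) :
    IsHittingSet [hitTuple F n s] (branchingPolys F n (s + 1)) := by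
  rintro f ⟨P, hP, rfl⟩ hf
  exact ⟨hitTuple F n s, List.mem_singleton.2 rfl, hitTuple_eval_ne_zero F n s P.toPoly hf
    ((tameF_branching F P).mono F hP)⟩

end Hit

end Vale.Agent.P314
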