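import Vale.Agent.P314.Core

/-!
# Linear independence of the iterated nested sums
-/

namespace Vale.Agent.P314

open Finset

section Indep

variable {K : Type*} [Field K] (σ : K ≃+* K) {n : ℕ} (φ : Fin n → K)

/-- nested sum of a word -/
def Yw : List (Fin n) → ℕ → K
  | [] => one
  | i :: w => nsum σ (φ i) (Yw w)

theorem Yw_nil : Yw σ φ [] = one := rfl

theorem Yw_cons (i : Fin n) (w : List (Fin n)) :
    Yw σ φ (i :: w) = nsum σ (φ i) (Yw σ φ w) := rfl

theorem theta_Yw_append (w : List (Fin n)) (i : Fin n) :
    theta σ (Yw σ φ (w ++ [i])) = Yw σ φ (w ++ [i]) + σ.symm (φ i) • Yw σ φ w := by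
  induction w with
  | nil =>
    simp only [List.nil_append, Yw_cons, Yw_nil, theta_nsum, theta_one, one_apply, mul_one]
  | cons j w ih =>
    have h0 : Yw σ φ (w ++ [i]) 0 = 0 := by
      cases w with
      | nil => simp [Yw_cons]
      | cons a w => simp [Yw_cons]
    rw [List.cons_append, Yw_cons, theta_nsum, ih, map_add, map_smul, h0, mul_zero, map_zero,
      zero_smul, add_zero, Yw_cons]

variable (n) in
/-- the words of length `l` -/
def wordsOf : ℕ → Finset (List (Fin n))
  | 0 => {[]}
  | l + 1 => (wordsOf l ×ˢ (univ : Finset (Fin n))).image fun p => p.1 ++ [p.2]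

theorem mem_wordsOf {l : ℕ} {w : List (Fin n)} : w ∈ wordsOf n l ↔ w.length = l := by
  induction l generalizing w with
  | zero => simp [wordsOf, List.length_eq_zero_iff]
  | succ l ih =>
    simp only [wordsOf, mem_image, mem_product, mem_univ, and_true, Prod.exists]
    constructor
    · rintro ⟨a, b, ha, rfl⟩
      simp [ih.1 ha]
    · intro hw
      have hne : w ≠ [] := by rintro rfl; simp at hw
      exact ⟨w.dropLast, w.getLast hne, ih.2 (by simp [hw]), List.dropLast_append_getLast hne⟩

theorem sum_wordsOf_succ {M : Type*} [AddCommMonoid M] (l : ℕ) (g : List (Fin n) → M) :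
    ∑ w ∈ wordsOf n (l + 1), g w = ∑ w ∈ wordsOf n l, ∑ i : Fin n, g (w ++ [i]) := by
  simp only [wordsOf]
  rw [Finset.sum_image, Finset.sum_product]
  rintro ⟨a, b⟩ _ ⟨c, d⟩ _ h
  simp only at h
  have := List.append_inj' h rfl
  simp only [List.cons.injEq, and_true] at this
  exact Prod.ext this.1 this.2

/-- a linear combination of the nested sums of words of length at most `d` -/
def lincomb (c : List (Fin n) → K) (d : ℕ) : ℕ → K :=
  ∑ l ∈ range (d + 1), ∑ w ∈ wordsOf n l, c w • Yw σ φ w

/-- the transformed coefficients -/
def tr (c : List (Fin n) → K) (w : List (Fin n)) : K :=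
  σ.symm (c w) - c w + ∑ i : Fin n, σ.symm (c (w ++ [i]) * φ i)

theorem lincomb_tr (c : List (Fin n) → K) (d : ℕ) (hc : ∀ w, d < w.length → c w = 0) :
    lincomb σ φ (tr σ φ c) d = theta σ (lincomb σ φ c d) - lincomb σ φ c d := by
  have hθ : theta σ (lincomb σ φ c d) = ∑ l ∈ range (d + 1), ∑ w ∈ wordsOf n l,
      σ.symm (c w) • theta σ (Yw σ φ w) := by
    simp only [lincomb, theta_sum, theta_smul]
  have h1 : theta σ (lincomb σ φ c d) =
      ∑ l ∈ range (d + 1), ∑ w ∈ wordsOf n l, σ.symm (c w) • Yw σ φ w +
      ∑ l ∈ range d, ∑ w ∈ wordsOf n l, (∑ i : Fin n, σ.symm (c (w ++ [i]) * φ i)) • Yw σ φ w := by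
    rw [hθ, Finset.sum_range_succ', Finset.sum_range_succ' _ d]
    have h2 : ∀ l, ∑ w ∈ wordsOf n (l + 1), σ.symm (c w) • theta σ (Yw σ φ w) =
        ∑ w ∈ wordsOf n (l + 1), σ.symm (c w) • Yw σ φ w +
          ∑ w ∈ wordsOf n l, (∑ i : Fin n, σ.symm (c (w ++ [i]) * φ i)) • Yw σ φ w := by
      intro l
      rw [sum_wordsOf_succ, sum_wordsOf_succ, ← Finset.sum_add_distrib]
      refine Finset.sum_congr rfl fun w _ => ?_
      rw [Finset.sum_smul, ← Finset.sum_add_distrib]
      refine Finset.sum_congr rfl fun i _ => ?_
      rw [theta_Yw_append, smul_add, map_mul, smul_smul]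
    simp only [h2, Finset.sum_add_distrib]
    have h3 : ∑ w ∈ wordsOf n 0, σ.symm (c w) • theta σ (Yw σ φ w) =
        ∑ w ∈ wordsOf n 0, σ.symm (c w) • Yw σ φ w := by
      simp [wordsOf, Yw_nil]
    rw [h3]
    abel
  rw [h1]
  have h4 : ∑ l ∈ range d, ∑ w ∈ wordsOf n l, (∑ i : Fin n, σ.symm (c (w ++ [i]) * φ i)) •
      Yw σ φ w = ∑ l ∈ range (d + 1), ∑ w ∈ wordsOf n l,
        (∑ i : Fin n, σ.symm (c (w ++ [i]) * φ i)) • Yw σ φ w := by
    rw [Finset.sum_range_succ]
    have : ∑ w ∈ wordsOf n d, (∑ i : Fin n, σ.symm (c (w ++ [i]) * φ i)) • Yw σ φ w = 0 := by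
      refine Finset.sum_eq_zero fun w hw => ?_
      have hw' := mem_wordsOf.1 hw
      have : ∀ i : Fin n, c (w ++ [i]) = 0 := fun i => hc _ (by simp [hw'])
      simp [this]
    rw [this, add_zero]
  rw [h4]
  simp only [lincomb, tr, add_smul, sub_smul, Finset.sum_add_distrib, Finset.sum_sub_distrib]
  abel

/-- (P2) -/
theorem coeff_eq_zero
    (hNE : ∀ α : Fin n → K, (∀ i, σ (α i) = α i) → ∀ c : K, ∑ i, α i * φ i = σ c - c →
      ∀ i, α i = 0) (d : ℕ) :
    ∀ c : List (Fin n) → K, (∀ w, d < w.length → c w = 0) → lincomb σ φ c d = 0 →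
      ∀ w, c w = 0 := by
  classical
  induction d with
  | zero =>
    intro c hc h w
    by_cases hw : w = []
    · subst hw
      have := congrFun h 0
      simpa [lincomb, wordsOf, Yw_nil] using this
    · exact hc w (List.length_pos_iff.2 hw)
  | succ d ih =>
    -- strong induction on the number of top coefficients
    have key : ∀ N : ℕ, ∀ c : List (Fin n) → K, (∀ w, d + 1 < w.length → c w = 0) →
        lincomb σ φ c (d + 1) = 0 → ((wordsOf n (d + 1)).filter fun w => c w ≠ 0).card = N →
        ∀ w, c w = 0 := by
      intro N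
      induction N using Nat.strong_induction_on with
      | _ N ihN =>
        intro c hc h hN
        have htop : ∀ w ∈ wordsOf n (d + 1), c w = 0 := by
          by_contra hcon
          push Not at hcon
          obtain ⟨w0, hw0, hcw0⟩ := hcon
          set c1 : List (Fin n) → K := fun w => (c w0)⁻¹ * c w with hc1
          have hc1' : ∀ w, d + 1 < w.length → c1 w = 0 := fun w hw => by simp [hc1, hc w hw]
          have hl1 : lincomb σ φ c1 (d + 1) = 0 := by
            have : lincomb σ φ c1 (d + 1) = (c w0)⁻¹ • lincomb σ φ c (d + 1) := by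
              simp only [lincomb, hc1, Finset.smul_sum, smul_smul]
            rw [this, h, smul_zero]
          have hc1w0 : c1 w0 = 1 := inv_mul_cancel₀ hcw0
          have htr : ∀ w, tr σ φ c1 w = 0 := by
            have hlt : ((wordsOf n (d + 1)).filter fun w => tr σ φ c1 w ≠ 0).card < N := by
              rw [← hN]
              apply Finset.card_lt_card
              rw [Finset.ssubset_iff_of_subset]
              · refine ⟨w0, ?_, ?_⟩
                · simp [hw0, hcw0]
                · simp only [mem_filter, hw0, true_and, not_not]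
                  have hz : ∀ i : Fin n, c1 (w0 ++ [i]) = 0 := fun i =>
                    hc1' _ (by simp [mem_wordsOf.1 hw0])
                  simp [tr, hz, hc1w0]
              · intro w hw
                simp only [mem_filter] at hw ⊢
                refine ⟨hw.1, fun hcw => hw.2 ?_⟩
                have hz : ∀ i : Fin n, c1 (w ++ [i]) = 0 := fun i =>
                  hc1' _ (by simp [mem_wordsOf.1 hw.1])
                have hz' : c1 w = 0 := by simp [hc1, hcw]
                simp [tr, hz, hz']
            refine ihN _ hlt (tr σ φ c1) ?_ ?_ rfl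
            · intro w hw
              have hz : ∀ i : Fin n, c1 (w ++ [i]) = 0 := fun i =>
                hc1' _ (by simp; omega)
              simp [tr, hz, hc1' w hw]
            · rw [lincomb_tr σ φ c1 (d + 1) hc1', hl1, theta_zero, sub_zero]
          -- top coefficients are constants
          have hconst : ∀ w, w.length = d + 1 → σ (c1 w) = c1 w := by
            intro w hw
            have := htr w
            have hz : ∀ i : Fin n, c1 (w ++ [i]) = 0 := fun i => hc1' _ (by simp [hw])
            simp only [tr, hz, zero_mul, map_zero, Finset.sum_const_zero, add_zero] at this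
            have h5 : σ.symm (c1 w) = c1 w := sub_eq_zero.1 this
            rw [RingEquiv.symm_apply_eq] at h5
            exact h5.symm
          have hne : w0 ≠ [] := by
            intro hnil
            have := mem_wordsOf.1 hw0
            rw [hnil] at this
            simp at this
          have hlen : w0.dropLast.length = d := by
            simp [mem_wordsOf.1 hw0]
          have h6 := htr w0.dropLast
          simp only [tr] at h6
          have h7 := hNE (fun i => c1 (w0.dropLast ++ [i])) (fun i => hconst _ (by simp [hlen]))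
            (c1 w0.dropLast) (by
              have h8 := congrArg σ h6
              simp only [map_add, map_sub, RingEquiv.apply_symm_apply, map_sum, map_zero] at h8
              linear_combination h8)
            (w0.getLast hne)
          simp only [List.dropLast_append_getLast hne] at h7
          rw [hc1w0] at h7
          exact one_ne_zero h7
        refine ih c ?_ ?_
        · intro w hw
          rcases Nat.lt_or_ge (d + 1) w.length with h9 | h9
          · exact hc w h9
          · exact htop w (mem_wordsOf.2 (by omega))
        · have : lincomb σ φ c (d + 1) = lincomb σ φ c d := by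
            unfold lincomb
            rw [Finset.sum_range_succ _ (d + 1)]
            have : ∑ w ∈ wordsOf n (d + 1), c w • Yw σ φ w = 0 :=
              Finset.sum_eq_zero fun w hw => by rw [htop w hw, zero_smul]
            rw [this, add_zero]
          rw [← this, h]
    intro c hc h
    exact key _ c hc h rfl

end Indep

end Vale.Agent.P314
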