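import Vale.Agent.P314.TMMain
import Vale.Agent.P314.Tuple

/-!
# The explicit tuple is computed by a polynomial time machine
-/

namespace Vale.Agent.P314

open TM TM.Ex Function

deriving instance Fintype for Sym

/-- product, as a bounded sum -/
abbrev mulE {V : Type} (u : V) (a b : Ex V) : Ex V := .sum u a b

theorem eval_mulE {V : Type} [DecidableEq V] (u : V) (a b : Ex V) (ρ : V → ℕ) (h : u ∉ b.regs) :
    (mulE u a b).eval ρ = a.eval ρ * b.eval ρ := by
  simp [Ex.eval, eval_update b ρ h]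

/-- register names -/
abbrev Rg := Fin 32

def n1 : Ex Rg := .add (.var 0) .one
def s1 : Ex Rg := .add (.var 1) .one
def eB : Ex Rg := mulE 10 n1 (mulE 11 s1 s1)
def eN : Ex Rg := mulE 12 eB (mulE 13 n1 s1)
def eD : Ex Rg := mulE 14 s1 eN
def eE : Ex Rg :=
  .add (.var 6) (mulE 15 (.add eB (.var 5)) (.add (mulE 16 (.var 7) n1) (.add (.var 2) .one)))
def eTest : Ex Rg := .isz 17 (.add (.sub 18 19 (.var 4) eE) (.sub 18 19 eE (.var 4)))
def eCond : Ex Rg := mulE 20 (.sub 18 19 (.var 3) (.var 5)) (.sum 7 eN eTest)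

theorem eval_n1 (ρ : Rg → ℕ) : n1.eval ρ = ρ 0 + 1 := rfl
theorem eval_s1 (ρ : Rg → ℕ) : s1.eval ρ = ρ 1 + 1 := rfl

theorem eval_eB (ρ : Rg → ℕ) : eB.eval ρ = parB (ρ 0) (ρ 1) := by
  rw [eB, eval_mulE _ _ _ _ (by decide), eval_mulE _ _ _ _ (by decide), eval_n1, eval_s1, parB]
  ring

theorem eval_eN (ρ : Rg → ℕ) : eN.eval ρ = parN (ρ 0) (ρ 1) := by
  rw [eN, eval_mulE _ _ _ _ (by decide), eval_mulE _ _ _ _ (by decide), eval_eB, eval_n1, eval_s1,
    parN]

theorem eval_eD (ρ : Rg → ℕ) : eD.eval ρ = parD (ρ 0) (ρ 1) := by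
  rw [eD, eval_mulE _ _ _ _ (by decide), eval_eN, eval_s1, parD, parM]

theorem eval_eE (ρ : Rg → ℕ) : eE.eval ρ =
    ρ 6 + (parB (ρ 0) (ρ 1) + ρ 5) * (ρ 7 * (ρ 0 + 1) + (ρ 2 + 1)) := by
  rw [eE]
  show ρ 6 + _ = _
  rw [eval_mulE _ _ _ _ (by decide)]
  show ρ 6 + (eB.eval ρ + ρ 5) * ((mulE 16 (.var 7) n1).eval ρ + (ρ 2 + 1)) = _
  rw [eval_mulE _ _ _ _ (by decide), eval_eB, eval_n1]
  rfl

theorem eval_eTest (ρ : Rg → ℕ) : eTest.eval ρ =
    if ρ 4 = ρ 6 + (parB (ρ 0) (ρ 1) + ρ 5) * (ρ 7 * (ρ 0 + 1) + (ρ 2 + 1)) then 1 else 0 := by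
  show (if (ρ 4 - eE.eval ρ) + (eE.eval ρ - ρ 4) = 0 then 1 else 0) = _
  rw [eval_eE]
  congr 1
  simp only [eq_iff_iff]
  omega

theorem eval_eCond_pos (ρ : Rg → ℕ) : 0 < eCond.eval ρ ↔ ρ 5 < ρ 3 ∧
    ∃ f < parN (ρ 0) (ρ 1),
      ρ 4 = ρ 6 + (parB (ρ 0) (ρ 1) + ρ 5) * (f * (ρ 0 + 1) + (ρ 2 + 1)) := by
  rw [eCond, eval_mulE _ _ _ _ (by decide)]
  show 0 < (ρ 3 - ρ 5) * (∑ f ∈ Finset.range (eN.eval ρ), eTest.eval (update ρ 7 f)) ↔ _
  rw [eval_eN, Nat.pos_iff_ne_zero, mul_ne_zero_iff, ← Nat.pos_iff_ne_zero,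
    ← Nat.pos_iff_ne_zero, Nat.sub_pos_iff_lt]
  refine and_congr Iff.rfl ?_
  rw [Finset.sum_pos_iff]
  refine exists_congr fun f => ?_
  rw [Finset.mem_range]
  refine and_congr Iff.rfl ?_
  rw [eval_eTest]
  show (0 < if ρ 4 = ρ 6 + (parB (ρ 0) (ρ 1) + ρ 5) * (f * (ρ 0 + 1) + (ρ 2 + 1)) then 1 else 0) ↔ _
  split_ifs with h
  · simp [h]
  · simp [h]

theorem hitCond_iff {n s i k a j b : ℕ} (hi : i < n) (ha : a < parN n s) (hb : b < parN n s) :
    HitCond n s i (k * parN n s + a) (j * parN n s + b) ↔ j < k ∧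
      ∃ f < parN n s, a = b + (parB n s + j) * (f * (n + 1) + (i + 1)) := by
  have hN : 0 < parN n s := by omega
  have hB : 0 < parB n s := by unfold parB; positivity
  have q1 : (k * parN n s + a) / parN n s = k := by
    rw [Nat.add_comm, Nat.add_mul_div_right _ _ hN, Nat.div_eq_of_lt ha, Nat.zero_add]
  have q2 : (j * parN n s + b) / parN n s = j := by
    rw [Nat.add_comm, Nat.add_mul_div_right _ _ hN, Nat.div_eq_of_lt hb, Nat.zero_add]
  have r1 : (k * parN n s + a) % parN n s = a := by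
    rw [Nat.add_comm, Nat.add_mul_mod_self_right, Nat.mod_eq_of_lt ha]
  have r2 : (j * parN n s + b) % parN n s = b := by
    rw [Nat.add_comm, Nat.add_mul_mod_self_right, Nat.mod_eq_of_lt hb]
  rw [HitCond, q1, q2, r1, r2]
  refine and_congr Iff.rfl ⟨?_, ?_⟩
  · rintro ⟨e, he, h1, h2⟩
    refine ⟨e / (n + 1), lt_of_le_of_lt (Nat.div_le_self _ _) he, ?_⟩
    rw [← h2, Nat.mul_comm (e / (n + 1)), Nat.div_add_mod]
    exact h1
  · rintro ⟨f, hf, h1⟩
    refine ⟨f * (n + 1) + (i + 1), ?_, h1, ?_⟩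
    · have : f * (n + 1) + (i + 1) ≤ (parB n s + j) * (f * (n + 1) + (i + 1)) :=
        Nat.le_mul_of_pos_left _ (by omega)
      omega
    · rw [Nat.add_comm, Nat.add_mul_mod_self_right, Nat.mod_eq_of_lt (by omega)]

/-- a natural number in unary -/
def gUn (x : Rg) (a : Ex Rg) : Gn Rg Sym := .seq (.rep x a (.emit [Sym.tick])) (.emit [Sym.sep])

theorem gen_gUn (x : Rg) (a : Ex Rg) (ρ : Rg → ℕ) :
    (gUn x a).gen ρ = encodeUnary (a.eval ρ) := by
  simp only [gUn, Gn.gen, encodeUnary]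
  congr 1
  induction a.eval ρ with
  | zero => rfl
  | succ m ih => rw [List.range_succ, List.flatMap_append, ih, List.replicate_succ']; rfl

/-- the generator of the output -/
def hitGen (l1 l0 : List Sym) : Gn Rg Sym :=
  .seq (gUn 21 (.var 0)) (.seq (.emit [Sym.tick, Sym.sep]) (.seq (gUn 21 eD)
    (.rep 2 (.var 0) (.rep 3 s1 (.rep 4 eN (.rep 5 s1 (.rep 6 eN
      (.ifp 22 eCond (.emit l1) (.emit l0)))))))))

theorem hitGen_wf (l1 l0 : List Sym) : (hitGen l1 l0).WF :=
  ⟨⟨⟨trivial, by decide, trivial, List.not_mem_nil⟩, trivial⟩, trivial,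
    ⟨⟨by decide, by decide, trivial, List.not_mem_nil⟩, trivial⟩,
    trivial, by decide,
    ⟨by decide, by decide,
    ⟨by decide, by decide,
    ⟨by decide, by decide,
    ⟨by decide, by decide,
    ⟨by decide, by decide, trivial, trivial⟩,
    by simp only [Gn.tmps]; decide⟩,
    by simp only [Gn.tmps]; decide⟩,
    by simp only [Gn.tmps]; decide⟩,
    by simp only [Gn.tmps]; decide⟩,
    by simp only [Gn.tmps]; decide⟩

theorem hitGen_tmps (l1 l0 : List Sym) : (0 : Rg) ∉ (hitGen l1 l0).tmps ∧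
    (1 : Rg) ∉ (hitGen l1 l0).tmps := by
  simp only [hitGen, gUn, Gn.tmps]
  decide

theorem finRange_flatMap {β : Type*} (d : ℕ) (g : ℕ → List β) :
    (List.finRange d).flatMap (fun r : Fin d => g r.val) = (List.range d).flatMap g := by
  rw [← List.map_coe_finRange_eq_range, List.flatMap_map]

theorem range_mul_flatMap {β : Type*} (M N : ℕ) (g : ℕ → List β) :
    (List.range (M * N)).flatMap g =
      (List.range M).flatMap fun k => (List.range N).flatMap fun a => g (k * N + a) := by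
  induction M with
  | zero => simp
  | succ M ih =>
    rw [Nat.succ_mul, List.range_add, List.flatMap_append, ih, List.range_succ,
      List.flatMap_append, List.flatMap_map]
    simp

theorem flatMap_congr' {α β : Type*} {l : List α} {f g : α → List β} (h : ∀ a ∈ l, f a = g a) :
    l.flatMap f = l.flatMap g := by
  induction l with
  | nil => rfl
  | cons a l ih =>
    rw [List.flatMap_cons, List.flatMap_cons, h a (by simp), ih fun b hb => h b (by simp [hb])]

theorem encodeMatrix_eq {F : Type} (enc : F → List Bool) (d : ℕ) (g : ℕ → ℕ → F) :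
    encodeMatrix enc (Matrix.of fun (r c : Fin d) => g r.val c.val) =
      (List.range d).flatMap fun r => (List.range d).flatMap fun c => encodeScalar enc (g r c) := by
  rw [← finRange_flatMap d fun r => (List.range d).flatMap fun c => encodeScalar enc (g r c)]
  refine flatMap_congr' fun (r : Fin d) _ => ?_
  exact finRange_flatMap d fun c => encodeScalar enc (g r.val c)

theorem gen_hitGen (F : Type) [Field F] (enc : F → List Bool) (n s : ℕ) :
    (hitGen (encodeScalar enc 1) (encodeScalar enc 0)).gen (initReg 0 1 n s) =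
      encodeOutput enc (⟨n, [hitTuple F n s]⟩ : (n : ℕ) × List (MatTuple F n)) := by
  have h0 : initReg (V := Rg) 0 1 n s 0 = n := rfl
  have h1 : initReg (V := Rg) 0 1 n s 1 = s := rfl
  set ρ := initReg (V := Rg) 0 1 n s with hρ
  simp only [hitGen, Gn.gen, gen_gUn, encodeOutput, List.flatMap_cons, List.flatMap_nil,
    List.append_nil, encodeTuple, eval_eD, h0, h1, List.length_singleton]
  have e0 : (Ex.var (0 : Rg)).eval ρ = n := h0
  rw [e0, List.append_assoc]
  congr 2
  show encodeUnary (parD n s) ++ _ = encodeUnary (parD n s) ++ _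
  congr 1
  rw [← finRange_flatMap n]
  refine flatMap_congr' fun (i : Fin n) _ => ?_
  have hi : (i : ℕ) < n := i.2
  have hM : encodeMatrix enc ((hitTuple F n s).mat i) =
      (List.range (parD n s)).flatMap fun r => (List.range (parD n s)).flatMap fun c =>
        encodeScalar enc (if HitCond n s i r c then (1 : F) else 0) :=
    encodeMatrix_eq enc (parD n s) fun r c => if HitCond n s i r c then (1 : F) else 0
  rw [hM]
  rw [parD, range_mul_flatMap]
  show (List.range (s + 1)).flatMap _ = (List.range (s + 1)).flatMap _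
  refine flatMap_congr' fun k _ => ?_
  rw [eval_eN]
  show (List.range (parN n s)).flatMap _ = (List.range (parN n s)).flatMap _
  refine flatMap_congr' fun a ha => ?_
  rw [range_mul_flatMap]
  show (List.range (s + 1)).flatMap _ = (List.range (s + 1)).flatMap _
  refine flatMap_congr' fun j _ => ?_
  rw [eval_eN]
  show (List.range (parN n s)).flatMap _ = (List.range (parN n s)).flatMap _
  refine flatMap_congr' fun b hb => ?_
  simp only [eval_eCond_pos]
  rw [List.mem_range] at ha hb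
  have hc := hitCond_iff (k := k) (j := j) hi ha hb
  by_cases hC : HitCond n s i (k * parN n s + a) (j * parN n s + b)
  · rw [if_pos hC, if_pos]
    exact hc.1 hC
  · rw [if_neg hC, if_neg]
    exact fun h => hC (hc.2 h)

/-- The explicit tuple is printed by a Turing machine in polynomial time in the unary input. -/
theorem exists_tm (F : Type) [Field F] (enc : F → List Bool) :
    ∃ C : Turing.TM2ComputableInPolyTime encodeInput (encodeOutput enc)
        (fun p : ℕ × ℕ => (⟨p.1, [hitTuple F p.1 p.2]⟩ : (n : ℕ) × List (MatTuple F n))),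
      ∀ k, Finite (C.tm.Γ k) :=
  exists_computable (hitGen (encodeScalar enc 1) (encodeScalar enc 0)) (hitGen_wf _ _) 0 1
    (by decide) (hitGen_tmps _ _).1 (hitGen_tmps _ _).2 encodeInput (fun _ => rfl)
    (encodeOutput enc) _ (fun p => (gen_hitGen F enc p.1 p.2).symm)

end Vale.Agent.P314
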