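import Vale.Agent.P314.TMLang

/-!
# A language of bounded arithmetic and list generators in unary, with its running time

`Ex` is a language of arithmetic expressions with bounded sums, `Gn` a language that generates
lists by bounded loops and tests. Both are compiled to `Prog`, with registers kept in unary, and
every program of `Gn` runs in polynomial time in the values of its registers.
-/

namespace Vale.Agent.P314.TM

open Turing Function

/-- The stacks: input, output, a scratch counter and the registers. -/
inductive Stk (V : Type) : Type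
  | inp : Stk V
  | out : Stk V
  | scr : Stk V
  | reg (x : V) : Stk V
  deriving DecidableEq, Fintype

/-- The stack alphabets. -/
@[reducible] def Gam (A O V : Type) : Stk V → Type
  | .inp => A
  | .out => O
  | .scr => Unit
  | .reg _ => Unit

variable {A O V : Type} [DecidableEq V]

/-- The stacks with given input, output, scratch counter and registers. -/
def mkS (i : List A) (o : List O) (c : ℕ) (ρ : V → ℕ) : ∀ k : Stk V, List (Gam A O V k)
  | .inp => i
  | .out => o
  | .scr => List.replicate c ()
  | .reg x => List.replicate (ρ x) ()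

/-- nonemptiness test for the counters -/
def ne : Option Unit → Bool := Option.isSome

omit [DecidableEq V] in
theorem ne_head (n : ℕ) : ne (List.replicate n ()).head? = decide (0 < n) := by
  cases n <;> rfl

abbrev popR (x : V) : Prog (Gam A O V) := .pop (.reg x)
abbrev pushR (x : V) : Prog (Gam A O V) := .push (.reg x) ()
abbrev popS : Prog (Gam A O V) := .pop .scr
abbrev pushS : Prog (Gam A O V) := .push .scr ()
abbrev whileR (x : V) (p : Prog (Gam A O V)) : Prog (Gam A O V) := .loop (.reg x) ne p
abbrev whileS (p : Prog (Gam A O V)) : Prog (Gam A O V) := .loop .scr ne p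
abbrev ifR (x : V) (p q : Prog (Gam A O V)) : Prog (Gam A O V) := .ite (.reg x) ne p q

section basic

variable (i : List A) (o : List O) (c : ℕ) (ρ : V → ℕ)

theorem runs_popR (x : V) :
    RunsIn (popR x) (mkS i o c ρ) (mkS i o c (update ρ x (ρ x - 1))) 1 := by
  have h := RunsIn.pop (Γ := Gam A O V) (.reg x) (mkS i o c ρ)
  convert h using 1
  funext k
  cases k with
  | reg y =>
    by_cases hy : y = x
    · subst hy
      simp [mkS]
    · rw [update_of_ne (by simpa using hy)]
      simp [mkS, update_of_ne hy]
  | _ => rw [update_of_ne (by simp)]; rfl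

theorem runs_pushR (x : V) :
    RunsIn (pushR x) (mkS i o c ρ) (mkS i o c (update ρ x (ρ x + 1))) 1 := by
  have h := RunsIn.push (Γ := Gam A O V) (.reg x) () (mkS i o c ρ)
  convert h using 1
  funext k
  cases k with
  | reg y =>
    by_cases hy : y = x
    · subst hy
      simp [mkS, List.replicate_succ]
    · rw [update_of_ne (by simpa using hy)]
      simp [mkS, update_of_ne hy]
  | _ => rw [update_of_ne (by simp)]; rfl

theorem runs_popS :
    RunsIn popS (mkS i o c ρ) (mkS i o (c - 1) ρ) 1 := by
  have h := RunsIn.pop (Γ := Gam A O V) .scr (mkS i o c ρ)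
  convert h using 1
  funext k
  cases k with
  | scr => simp [mkS]
  | _ => rw [update_of_ne (by simp)]; rfl

theorem runs_pushS :
    RunsIn pushS (mkS i o c ρ) (mkS i o (c + 1) ρ) 1 := by
  have h := RunsIn.push (Γ := Gam A O V) .scr () (mkS i o c ρ)
  convert h using 1
  funext k
  cases k with
  | scr => simp [mkS, List.replicate_succ]
  | _ => rw [update_of_ne (by simp)]; rfl

theorem runs_emit1 (a : O) :
    RunsIn (.push .out a) (mkS i o c ρ) (mkS i (a :: o) c ρ) 1 := by
  have h := RunsIn.push (Γ := Gam A O V) .out a (mkS i o c ρ)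
  convert h using 1
  funext k
  cases k with
  | out => simp [mkS]
  | _ => rw [update_of_ne (by simp)]; rfl

theorem runs_popI :
    RunsIn (.pop .inp) (mkS i o c ρ) (mkS i.tail o c ρ) 1 := by
  have h := RunsIn.pop (Γ := Gam A O V) .inp (mkS i o c ρ)
  convert h using 1
  funext k
  cases k with
  | inp => simp [mkS]
  | _ => rw [update_of_ne (by simp)]; rfl

omit [DecidableEq V] in
theorem test_reg (x : V) : ne ((mkS i o c ρ (.reg x)).head?) = decide (0 < ρ x) := ne_head _

omit [DecidableEq V] in
theorem test_scr : ne ((mkS i o c ρ .scr).head?) = decide (0 < c) := ne_head _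

/-- clearing a register -/
abbrev clearR (x : V) : Prog (Gam A O V) := whileR x (popR x)

theorem runs_clearR (x : V) :
    RunsIn (clearR x) (mkS i o c ρ) (mkS i o c (update ρ x 0)) (2 * ρ x + 1) := by
  have h := RunsIn.loop (k := Stk.reg x) (test := ne) (p := popR (A := A) (O := O) x) (ρ x)
    (fun j => mkS i o c (update ρ x (ρ x - j))) (fun _ => 1)
    (fun j hj => by rw [test_reg]; simpa using hj)
    (by rw [test_reg]; simp)
    (fun j hj => by
      have h := runs_popR i o c (update ρ x (ρ x - j)) x
      simp only [update_self, update_idem] at h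
      rwa [Nat.sub_sub] at h)
  simp only [Nat.sub_zero, update_eq_self, Nat.sub_self] at h
  refine h.mono ?_
  simp
  omega

end basic

/-! ### Arithmetic expressions -/

/-- Arithmetic expressions with bounded sums, truncated subtraction and zero test. The variables
`u`, `v` that stand first are used as temporary registers (in `sum`, `u` is the bound variable). -/
inductive Ex (V : Type) : Type
  | one : Ex V
  | var (x : V) : Ex V
  | add (a b : Ex V) : Ex V
  | sum (u : V) (a b : Ex V) : Ex V
  | sub (u v : V) (a b : Ex V) : Ex V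
  | isz (u : V) (a : Ex V) : Ex V

namespace Ex

/-- The value of an expression. -/
def eval : Ex V → (V → ℕ) → ℕ
  | one, _ => 1
  | var x, ρ => ρ x
  | add a b, ρ => a.eval ρ + b.eval ρ
  | sum u a b, ρ => ∑ j ∈ Finset.range (a.eval ρ), b.eval (update ρ u j)
  | sub _ _ a b, ρ => a.eval ρ - b.eval ρ
  | isz _ a, ρ => if a.eval ρ = 0 then 1 else 0

/-- An upper bound for the running time of an expression. -/
def time : Ex V → (V → ℕ) → ℕ
  | one, _ => 1
  | var x, ρ => 7 * ρ x + 2
  | add a b, ρ => a.time ρ + b.time ρ
  | sum u a b, ρ => a.time ρ + ((∑ j ∈ Finset.range (a.eval ρ), (b.time (update ρ u j) + 2)) + 1)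
  | sub _ _ a b, ρ => a.time ρ + (b.time ρ + ((4 * a.eval ρ + 1) + (2 * b.eval ρ + 1)))
  | isz _ a, ρ => a.time ρ + (2 * a.eval ρ + 2)

/-- The temporary registers of an expression. -/
def tmps : Ex V → List V
  | one => []
  | var _ => []
  | add a b => a.tmps ++ b.tmps
  | sum u a b => u :: (a.tmps ++ b.tmps)
  | sub u v a b => u :: v :: (a.tmps ++ b.tmps)
  | isz u a => u :: a.tmps

/-- All registers of an expression. -/
def regs : Ex V → List V
  | one => []
  | var x => [x]
  | add a b => a.regs ++ b.regs
  | sum u a b => u :: (a.regs ++ b.regs)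
  | sub u v a b => u :: v :: (a.regs ++ b.regs)
  | isz u a => u :: a.regs

/-- The temporary registers are used correctly. -/
def WF : Ex V → Prop
  | one => True
  | var _ => True
  | add a b => a.WF ∧ b.WF
  | sum u a b => a.WF ∧ b.WF ∧ u ∉ a.regs ∧ u ∉ b.tmps
  | sub u v a b => a.WF ∧ b.WF ∧ u ∉ a.regs ∧ u ∉ b.regs ∧ v ∉ a.regs ∧ v ∉ b.regs ∧ u ≠ v
  | isz u a => a.WF ∧ u ∉ a.regs

instance decWF : (e : Ex V) → Decidable e.WF
  | one => inferInstanceAs (Decidable True)
  | var _ => inferInstanceAs (Decidable True)
  | add a b =>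
    have := decWF a
    have := decWF b
    inferInstanceAs (Decidable (a.WF ∧ b.WF))
  | sum u a b =>
    have := decWF a
    have := decWF b
    inferInstanceAs (Decidable (a.WF ∧ b.WF ∧ u ∉ a.regs ∧ u ∉ b.tmps))
  | sub u v a b =>
    have := decWF a
    have := decWF b
    inferInstanceAs (Decidable (a.WF ∧ b.WF ∧ u ∉ a.regs ∧ u ∉ b.regs ∧ v ∉ a.regs ∧
      v ∉ b.regs ∧ u ≠ v))
  | isz u a =>
    have := decWF a
    inferInstanceAs (Decidable (a.WF ∧ u ∉ a.regs))

/-- The program that adds the value of an expression to the register `t`. -/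
def prog (t : V) : Ex V → Prog (Gam A O V)
  | one => pushR t
  | var x => .seq (whileR x (.seq (popR x) (.seq (pushR t) pushS))) (whileS (.seq popS (pushR x)))
  | add a b => .seq (prog t a) (prog t b)
  | sum u a b => .seq (prog u a) (whileR u (.seq (popR u) (prog t b)))
  | sub u v a b => .seq (prog u a) (.seq (prog v b) (.seq
      (whileR u (.seq (popR u) (ifR v (popR v) (pushR t)))) (clearR v)))
  | isz u a => .seq (prog u a) (ifR u (clearR u) (pushR t))

omit [DecidableEq V] in
theorem tmps_subset_regs (e : Ex V) : ∀ x ∈ e.tmps, x ∈ e.regs := by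
  induction e with
  | one => simp [tmps]
  | var x => simp [tmps]
  | add a b iha ihb =>
    intro x hx
    simp only [tmps, regs, List.mem_append] at hx ⊢
    exact hx.imp (iha x) (ihb x)
  | sum u a b iha ihb =>
    intro x hx
    simp only [tmps, regs, List.mem_append, List.mem_cons] at hx ⊢
    exact hx.imp id (Or.imp (iha x) (ihb x))
  | sub u v a b iha ihb =>
    intro x hx
    simp only [tmps, regs, List.mem_append, List.mem_cons] at hx ⊢
    exact hx.imp id (Or.imp id (Or.imp (iha x) (ihb x)))
  | isz u a iha =>
    intro x hx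
    simp only [tmps, regs, List.mem_cons] at hx ⊢
    exact hx.imp id (iha x)

theorem eval_congr (e : Ex V) : ∀ ρ ρ' : V → ℕ, (∀ x ∈ e.regs, ρ x = ρ' x) →
    e.eval ρ = e.eval ρ' ∧ e.time ρ = e.time ρ' := by
  induction e with
  | one => intro ρ ρ' _; exact ⟨rfl, rfl⟩
  | var x =>
    intro ρ ρ' h
    have := h x (by simp [regs])
    simp [eval, time, this]
  | add a b iha ihb =>
    intro ρ ρ' h
    have ha := iha ρ ρ' (fun x hx => h x (by simp [regs, hx]))
    have hb := ihb ρ ρ' (fun x hx => h x (by simp [regs, hx]))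
    simp [eval, time, ha, hb]
  | sum u a b iha ihb =>
    intro ρ ρ' h
    have ha := iha ρ ρ' (fun x hx => h x (by simp [regs, hx]))
    have hb : ∀ j, _ := fun j => ihb (update ρ u j) (update ρ' u j) (fun x hx => by
      by_cases hxu : x = u
      · subst hxu; simp
      · rw [update_of_ne hxu, update_of_ne hxu]
        exact h x (by simp [regs, hx]))
    simp only [eval, time, ha, fun j => (hb j).1, fun j => (hb j).2]
    exact ⟨trivial, trivial⟩
  | sub u v a b iha ihb =>
    intro ρ ρ' h
    have ha := iha ρ ρ' (fun x hx => h x (by simp [regs, hx]))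
    have hb := ihb ρ ρ' (fun x hx => h x (by simp [regs, hx]))
    simp [eval, time, ha, hb]
  | isz u a iha =>
    intro ρ ρ' h
    have ha := iha ρ ρ' (fun x hx => h x (by simp [regs, hx]))
    simp [eval, time, ha]

theorem eval_update (e : Ex V) (ρ : V → ℕ) {x : V} (hx : x ∉ e.regs) (n : ℕ) :
    e.eval (update ρ x n) = e.eval ρ :=
  (eval_congr e _ _ (fun y hy => update_of_ne (by rintro rfl; exact hx hy) _ _)).1

theorem time_update (e : Ex V) (ρ : V → ℕ) {x : V} (hx : x ∉ e.regs) (n : ℕ) :
    e.time (update ρ x n) = e.time ρ :=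
  (eval_congr e _ _ (fun y hy => update_of_ne (by rintro rfl; exact hx hy) _ _)).2

theorem prog_spec (i : List A) (o : List O) (e : Ex V) : ∀ (t : V) (ρ : V → ℕ), e.WF →
    t ∉ e.regs → (∀ x ∈ e.tmps, ρ x = 0) →
    RunsIn (prog t e) (mkS i o 0 ρ) (mkS i o 0 (update ρ t (ρ t + e.eval ρ))) (e.time ρ) := by
  induction e with
  | one =>
    intro t ρ _ _ _
    exact runs_pushR i o 0 ρ t
  | var x =>
    intro t ρ _ ht _
    have htx : t ≠ x := by simpa [regs] using ht
    have h1 := RunsIn.loop (k := Stk.reg x) (test := ne)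
      (p := (.seq (popR x) (.seq (pushR t) pushS) : Prog (Gam A O V))) (ρ x)
      (fun j => mkS i o j (update (update ρ x (ρ x - j)) t (ρ t + j))) (fun _ => 3)
      (fun j hj => by rw [test_reg]; simpa [htx.symm] using hj)
      (by rw [test_reg]; simp [htx.symm])
      (fun j hj => by
        refine RunsIn.seq (T := 1) (T' := 2) (runs_popR _ _ _ _ _)
          (RunsIn.seq (T := 1) (T' := 1) (runs_pushR _ _ _ _ _)
            ((runs_pushS _ _ _ _).congr rfl ?_))
        congr 1
        funext y
        by_cases hyt : y = t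
        · subst hyt
          simp [htx, Nat.add_assoc]
        · by_cases hyx : y = x
          · subst hyx
            simp [hyt, Nat.sub_sub]
          · simp [hyt, hyx])
    have h2 := RunsIn.loop (k := Stk.scr) (test := ne)
      (p := (.seq popS (pushR x) : Prog (Gam A O V))) (ρ x)
      (fun j => mkS i o (ρ x - j) (update (update ρ t (ρ t + ρ x)) x j)) (fun _ => 2)
      (fun j hj => by rw [test_scr]; simpa using hj)
      (by rw [test_scr]; simp)
      (fun j hj => by
        refine RunsIn.seq (T := 1) (T' := 1) (runs_popS _ _ _ _)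
          ((runs_pushR _ _ _ _ _).congr rfl ?_)
        rw [update_self, update_idem, Nat.sub_sub])
    have h3 : mkS (A := A) (O := O) i o (ρ x - 0) (update (update ρ t (ρ t + ρ x)) x 0)
        = mkS i o (ρ x) (update (update ρ x (ρ x - ρ x)) t (ρ t + ρ x)) := by
      rw [update_comm htx, Nat.sub_self, Nat.sub_zero]
    have h4 : mkS (A := A) (O := O) i o 0 (update (update ρ x (ρ x - 0)) t (ρ t + 0))
        = mkS i o 0 ρ := by
      rw [Nat.sub_zero, update_eq_self, Nat.add_zero, update_eq_self]
    have h5 : mkS (A := A) (O := O) i o (ρ x - ρ x) (update (update ρ t (ρ t + ρ x)) x (ρ x))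
        = mkS i o 0 (update ρ t (ρ t + (var x).eval ρ)) := by
      rw [Nat.sub_self]
      congr 1
      funext y
      by_cases hyx : y = x
      · subst hyx
        simp [Ne.symm htx]
      · simp [hyx, eval]
    refine ((h1.congr h4 rfl).seq (h2.congr h3 h5)).mono ?_
    simp [time]
    omega
  | add a b iha ihb =>
    intro t ρ hw ht h0
    simp only [regs, List.mem_append, not_or] at ht
    simp only [tmps, List.mem_append] at h0
    have h1 := iha t ρ hw.1 ht.1 (fun x hx => h0 x (Or.inl hx))
    have h2 := ihb t (update ρ t (ρ t + a.eval ρ)) hw.2 ht.2 (fun x hx => by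
      rw [update_of_ne (by rintro rfl; exact ht.2 (tmps_subset_regs b _ hx))]
      exact h0 x (Or.inr hx))
    rw [eval_update _ _ ht.2, time_update _ _ ht.2] at h2
    refine (h1.seq h2).congr rfl ?_
    simp [eval, Nat.add_assoc]
  | sum u a b iha ihb =>
    intro t ρ hw ht h0
    obtain ⟨hwa, hwb, hua, hub⟩ := hw
    simp only [regs, List.mem_append, List.mem_cons, not_or] at ht
    obtain ⟨htu, hta, htb⟩ := ht
    simp only [tmps, List.mem_append, List.mem_cons] at h0
    have hu0 : ρ u = 0 := h0 u (Or.inl rfl)
    have h1 := iha u ρ hwa hua (fun x hx => h0 x (Or.inr (Or.inl hx)))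
    rw [hu0, Nat.zero_add] at h1
    set m := a.eval ρ with hm
    have h2 := RunsIn.loop (k := Stk.reg u) (test := ne)
      (p := (.seq (popR u) (prog t b) : Prog (Gam A O V))) m
      (fun j => mkS i o 0 (update (update ρ u (m - j)) t
        (ρ t + ∑ l ∈ Finset.range j, b.eval (update ρ u (m - 1 - l)))))
      (fun j => b.time (update ρ u (m - 1 - j)) + 1)
      (fun j hj => by rw [test_reg]; simpa [Ne.symm htu] using hj)
      (by rw [test_reg]; simp [Ne.symm htu])
      (fun j hj => by
        have e1 : update (update (update ρ u (m - j)) t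
            (ρ t + ∑ l ∈ Finset.range j, b.eval (update ρ u (m - 1 - l)))) u
            ((update (update ρ u (m - j)) t
            (ρ t + ∑ l ∈ Finset.range j, b.eval (update ρ u (m - 1 - l)))) u - 1)
            = update (update ρ u (m - 1 - j)) t
              (ρ t + ∑ l ∈ Finset.range j, b.eval (update ρ u (m - 1 - l))) := by
          funext y
          by_cases hyt : y = t
          · subst hyt
            simp [htu]
          · by_cases hyu : y = u
            · subst hyu
              simp [hyt]
              omega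
            · simp [hyt, hyu]
        have h3 := runs_popR i o 0 (update (update ρ u (m - j)) t
          (ρ t + ∑ l ∈ Finset.range j, b.eval (update ρ u (m - 1 - l)))) u
        rw [e1] at h3
        have h4 := ihb t (update (update ρ u (m - 1 - j)) t
          (ρ t + ∑ l ∈ Finset.range j, b.eval (update ρ u (m - 1 - l)))) hwb htb (fun x hx => by
            rw [update_of_ne (by rintro rfl; exact htb (tmps_subset_regs b _ hx)),
              update_of_ne (by rintro rfl; exact hub hx)]
            exact h0 x (Or.inr (Or.inr hx)))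
        rw [eval_update _ _ htb, time_update _ _ htb] at h4
        refine ((h3.seq h4).mono (by omega)).congr rfl ?_
        simp only [update_self, update_idem]
        rw [Finset.sum_range_succ, Nat.add_assoc, show m - (j + 1) = m - 1 - j by omega])
    refine ((h1.seq (h2.congr ?_ rfl)).mono ?_).congr rfl ?_
    · simp only [Finset.range_zero, Finset.sum_empty, Nat.sub_zero, Nat.add_zero]
      rw [show ρ t = (update ρ u m) t by rw [update_of_ne htu], update_eq_self]
    · simp only [time, ← hm]
      rw [Finset.sum_range_reflect (fun j => b.time (update ρ u j) + 1 + 1) m]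
    · simp only [eval, ← hm]
      rw [Finset.sum_range_reflect (fun j => b.eval (update ρ u j)) m, Nat.sub_self]
      rw [show update ρ u 0 = ρ by rw [← hu0, update_eq_self]]
  | sub u v a b iha ihb =>
    intro t ρ hw ht h0
    obtain ⟨hwa, hwb, hua, hub, hva, hvb, huv⟩ := hw
    simp only [regs, List.mem_append, List.mem_cons, not_or] at ht
    obtain ⟨htu, htv, hta, htb⟩ := ht
    simp only [tmps, List.mem_append, List.mem_cons] at h0
    have hu0 : ρ u = 0 := h0 u (Or.inl rfl)
    have hv0 : ρ v = 0 := h0 v (Or.inr (Or.inl rfl))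
    have h1 := iha u ρ hwa hua (fun x hx => h0 x (Or.inr (Or.inr (Or.inl hx))))
    rw [hu0, Nat.zero_add] at h1
    have h2 := ihb v (update ρ u (a.eval ρ)) hwb hvb (fun x hx => by
      rw [update_of_ne (by rintro rfl; exact hub (tmps_subset_regs b _ hx))]
      exact h0 x (Or.inr (Or.inr (Or.inr hx))))
    rw [eval_update _ _ hub, time_update _ _ hub, update_of_ne huv.symm, hv0, Nat.zero_add] at h2
    have h3 := RunsIn.loop (k := Stk.reg u) (test := ne)
      (p := (.seq (popR u) (ifR v (popR v) (pushR t)) : Prog (Gam A O V))) (a.eval ρ)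
      (fun j => mkS i o 0 (update (update (update ρ u (a.eval ρ - j)) v (b.eval ρ - j)) t
        (ρ t + (j - b.eval ρ))))
      (fun j => 3)
      (fun j hj => by rw [test_reg]; simpa [Ne.symm htu, huv] using hj)
      (by rw [test_reg]; simp [Ne.symm htu, huv])
      (fun j hj => by
        refine RunsIn.seq (T := 1) (T' := 2) (runs_popR _ _ _ _ _) ?_
        by_cases hjb : j < b.eval ρ
        · refine (RunsIn.iteT (T := 1) ?_ (runs_popR _ _ _ _ _)).congr rfl ?_
          · rw [test_reg]
            simpa [huv.symm, Ne.symm htv] using hjb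
          · congr 1
            funext y
            by_cases hyt : y = t
            · subst hyt
              simp [htu, htv]
              omega
            · by_cases hyu : y = u
              · subst hyu
                simp [hyt, huv]
                omega
              · by_cases hyv : y = v
                · subst hyv
                  simp [hyt, hyu]
                  omega
                · simp [hyt, hyu, hyv]
        · refine (RunsIn.iteF (T := 1) ?_ (runs_pushR _ _ _ _ _)).congr rfl ?_
          · rw [test_reg]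
            simp [huv.symm, Ne.symm htv]
            omega
          · congr 1
            funext y
            by_cases hyt : y = t
            · subst hyt
              simp [htu]
              omega
            · by_cases hyu : y = u
              · subst hyu
                simp [hyt, huv]
                omega
              · by_cases hyv : y = v
                · subst hyv
                  simp [hyt, hyu]
                  omega
                · simp [hyt, hyu, hyv])
    have h4 := runs_clearR i o 0 (update (update (update ρ u (a.eval ρ - a.eval ρ)) v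
      (b.eval ρ - a.eval ρ)) t (ρ t + (a.eval ρ - b.eval ρ))) v
    refine ((h1.seq (h2.seq ((h3.congr ?_ rfl).seq h4))).mono ?_).congr rfl ?_
    · simp only [Nat.sub_zero, Nat.zero_sub, Nat.add_zero]
      rw [show ρ t = (update (update ρ u (a.eval ρ)) v (b.eval ρ)) t by
        rw [update_of_ne htv, update_of_ne htu], update_eq_self]
    · simp [time, Ne.symm htv]
      omega
    · congr 1
      funext y
      by_cases hyt : y = t
      · subst hyt
        simp [htv, eval]
      · by_cases hyu : y = u
        · subst hyu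
          simp [hyt, huv, hu0]
        · by_cases hyv : y = v
          · subst hyv
            simp [hyt, hv0]
          · simp [hyt, hyu, hyv]
  | isz u a iha =>
    intro t ρ hw ht h0
    obtain ⟨hwa, hua⟩ := hw
    simp only [regs, List.mem_cons, not_or] at ht
    obtain ⟨htu, hta⟩ := ht
    simp only [tmps, List.mem_cons] at h0
    have hu0 : ρ u = 0 := h0 u (Or.inl rfl)
    have h1 := iha u ρ hwa hua (fun x hx => h0 x (Or.inr hx))
    rw [hu0, Nat.zero_add] at h1
    by_cases ha : a.eval ρ = 0
    · have h2 := RunsIn.iteF (k := Stk.reg u) (test := ne) (p := clearR u) (T := 1)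
        (by rw [test_reg]; simp [ha]) (runs_pushR (A := A) (O := O) i o 0 (update ρ u (a.eval ρ)) t)
      refine ((h1.seq h2).mono ?_).congr rfl ?_
      · simp [time]
      · rw [ha]
        simp only [eval, ha, if_true]
        rw [show update ρ u 0 = ρ by rw [← hu0, update_eq_self]]
    · have h2 := RunsIn.iteT (k := Stk.reg u) (test := ne) (q := pushR t)
        (by rw [test_reg]; simp; omega)
        (runs_clearR (A := A) (O := O) i o 0 (update ρ u (a.eval ρ)) u)
      refine ((h1.seq h2).mono ?_).congr rfl ?_
      · simp [time]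
      · simp only [eval, ha, if_false, update_idem, Nat.add_zero, update_eq_self]
        rw [show update ρ u 0 = ρ by rw [← hu0, update_eq_self]]

end Ex

/-! ### Polynomial bounds -/

/-- Functions bounded by a polynomial. -/
def PB (f : ℕ → ℕ) : Prop := ∃ c k, ∀ X, f X ≤ c * (X + 1) ^ k

theorem PB.const (m : ℕ) : PB fun _ => m := ⟨m, 0, fun X => by simp⟩

theorem PB.id : PB fun X => X := ⟨1, 1, fun X => by simp⟩

theorem PB.add {f g : ℕ → ℕ} (hf : PB f) (hg : PB g) : PB fun X => f X + g X := by
  obtain ⟨c, k, hf⟩ := hf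
  obtain ⟨d, l, hg⟩ := hg
  refine ⟨c + d, k + l, fun X => ?_⟩
  have h1 : (X + 1) ^ k ≤ (X + 1) ^ (k + l) := Nat.pow_le_pow_right (by omega) (by omega)
  have h2 : (X + 1) ^ l ≤ (X + 1) ^ (k + l) := Nat.pow_le_pow_right (by omega) (by omega)
  calc f X + g X ≤ c * (X + 1) ^ k + d * (X + 1) ^ l := add_le_add (hf X) (hg X)
    _ ≤ c * (X + 1) ^ (k + l) + d * (X + 1) ^ (k + l) := by gcongr
    _ = (c + d) * (X + 1) ^ (k + l) := by ring

theorem PB.mul {f g : ℕ → ℕ} (hf : PB f) (hg : PB g) : PB fun X => f X * g X := by
  obtain ⟨c, k, hf⟩ := hf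
  obtain ⟨d, l, hg⟩ := hg
  refine ⟨c * d, k + l, fun X => ?_⟩
  calc f X * g X ≤ (c * (X + 1) ^ k) * (d * (X + 1) ^ l) := Nat.mul_le_mul (hf X) (hg X)
    _ = c * d * (X + 1) ^ (k + l) := by ring

theorem PB.comp {f g : ℕ → ℕ} (hf : PB f) (hg : PB g) : PB fun X => f (g X) := by
  obtain ⟨c, k, hf⟩ := hf
  obtain ⟨d, l, hg⟩ := hg
  refine ⟨c * (d + 1) ^ k, l * k, fun X => ?_⟩
  have h1 : 1 ≤ (X + 1) ^ l := Nat.one_le_pow _ _ (by omega)
  calc f (g X) ≤ c * (g X + 1) ^ k := hf _
    _ ≤ c * (d * (X + 1) ^ l + (X + 1) ^ l) ^ k := by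
        gcongr
        exact hg X
    _ = c * (d + 1) ^ k * (X + 1) ^ (l * k) := by
        rw [show d * (X + 1) ^ l + (X + 1) ^ l = (d + 1) * (X + 1) ^ l by ring, mul_pow, pow_mul]
        ring

theorem PB.of_le {f g : ℕ → ℕ} (hf : PB f) (h : ∀ X, g X ≤ f X) : PB g := by
  obtain ⟨c, k, hf⟩ := hf
  exact ⟨c, k, fun X => (h X).trans (hf X)⟩

theorem Ex.bound (e : Ex V) : ∃ f : ℕ → ℕ, PB f ∧ ∀ (X : ℕ) (ρ : V → ℕ), (∀ x, ρ x ≤ X) →
    e.eval ρ ≤ f X ∧ e.time ρ ≤ f X := by
  induction e with
  | one => exact ⟨fun _ => 1, PB.const 1, fun X ρ _ => ⟨le_rfl, le_rfl⟩⟩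
  | var x =>
    refine ⟨fun X => 7 * X + 2, ((PB.const 7).mul PB.id).add (PB.const 2), fun X ρ h => ?_⟩
    have := h x
    simp only [eval, time]
    omega
  | add a b iha ihb =>
    obtain ⟨f, hf, hf'⟩ := iha
    obtain ⟨g, hg, hg'⟩ := ihb
    refine ⟨fun X => f X + g X, hf.add hg, fun X ρ h => ?_⟩
    have h1 := hf' X ρ h
    have h2 := hg' X ρ h
    simp only [eval, time]
    omega
  | sum u a b iha ihb =>
    obtain ⟨f, hf, hf'⟩ := iha
    obtain ⟨g, hg, hg'⟩ := ihb
    refine ⟨fun X => f X + (f X * (g (X + f X) + 2) + 1),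
      hf.add ((hf.mul ((hg.comp (PB.id.add hf)).add (PB.const 2))).add (PB.const 1)),
      fun X ρ h => ?_⟩
    have h1 := hf' X ρ h
    have h2 : ∀ j ∈ Finset.range (a.eval ρ), b.eval (update ρ u j) ≤ g (X + f X) ∧
        b.time (update ρ u j) ≤ g (X + f X) := by
      intro j hj
      refine hg' (X + f X) _ fun x => ?_
      have hj' := Finset.mem_range.1 hj
      by_cases hx : x = u
      · subst hx
        simp
        omega
      · rw [update_of_ne hx]
        have := h x
        omega
    simp only [eval, time]
    constructor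
    · calc ∑ j ∈ Finset.range (a.eval ρ), b.eval (update ρ u j)
          ≤ ∑ j ∈ Finset.range (a.eval ρ), (g (X + f X) + 2) :=
            Finset.sum_le_sum fun j hj => (h2 j hj).1.trans (by omega)
        _ = a.eval ρ * (g (X + f X) + 2) := by simp
        _ ≤ f X * (g (X + f X) + 2) := Nat.mul_le_mul_right _ h1.1
        _ ≤ _ := by omega
    · have h3 : ∑ j ∈ Finset.range (a.eval ρ), (b.time (update ρ u j) + 2)
          ≤ f X * (g (X + f X) + 2) :=
        calc ∑ j ∈ Finset.range (a.eval ρ), (b.time (update ρ u j) + 2)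
          ≤ ∑ j ∈ Finset.range (a.eval ρ), (g (X + f X) + 2) :=
            Finset.sum_le_sum fun j hj => Nat.add_le_add_right (h2 j hj).2 2
        _ = a.eval ρ * (g (X + f X) + 2) := by simp
        _ ≤ f X * (g (X + f X) + 2) := Nat.mul_le_mul_right _ h1.1
      omega
  | sub u v a b iha ihb =>
    obtain ⟨f, hf, hf'⟩ := iha
    obtain ⟨g, hg, hg'⟩ := ihb
    refine ⟨fun X => f X + (g X + ((4 * f X + 1) + (2 * g X + 1))),
      hf.add (hg.add ((((PB.const 4).mul hf).add (PB.const 1)).add
        (((PB.const 2).mul hg).add (PB.const 1)))), fun X ρ h => ?_⟩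
    have h1 := hf' X ρ h
    have h2 := hg' X ρ h
    simp only [eval, time]
    omega
  | isz u a iha =>
    obtain ⟨f, hf, hf'⟩ := iha
    refine ⟨fun X => f X + (2 * f X + 2), hf.add (((PB.const 2).mul hf).add (PB.const 2)),
      fun X ρ h => ?_⟩
    have h1 := hf' X ρ h
    simp only [eval, time]
    split_ifs <;> omega

/-! ### List generators -/

/-- Programs that generate a list. In `rep x a p` the variable `x` runs through the numbers below
`a`; in `ifp u a p q` the branch `p` is taken if `a` is positive. -/
inductive Gn (V O : Type) : Type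
  | emit (l : List O) : Gn V O
  | seq (p q : Gn V O) : Gn V O
  | rep (x : V) (a : Ex V) (p : Gn V O) : Gn V O
  | ifp (u : V) (a : Ex V) (p q : Gn V O) : Gn V O

namespace Gn

/-- The generated list. -/
def gen : Gn V O → (V → ℕ) → List O
  | emit l, _ => l
  | seq p q, ρ => p.gen ρ ++ q.gen ρ
  | rep x a p, ρ => (List.range (a.eval ρ)).flatMap fun j => p.gen (update ρ x j)
  | ifp _ a p q, ρ => if 0 < a.eval ρ then p.gen ρ else q.gen ρ

/-- An upper bound for the running time. -/
def time : Gn V O → (V → ℕ) → ℕ
  | emit l, _ => l.length + 1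
  | seq p q, ρ => q.time ρ + p.time ρ
  | rep x a p, ρ => a.time ρ + ((∑ j ∈ Finset.range (a.eval ρ), (p.time (update ρ x j) + 2)) + 1)
  | ifp _ a p q, ρ => a.time ρ + ((2 * a.eval ρ + 1) + p.time ρ + q.time ρ + 1)

/-- The temporary registers. -/
def tmps : Gn V O → List V
  | emit _ => []
  | seq p q => p.tmps ++ q.tmps
  | rep x a p => x :: (a.tmps ++ p.tmps)
  | ifp u a p q => u :: (a.tmps ++ (p.tmps ++ q.tmps))

/-- The temporary registers are used correctly. -/
def WF : Gn V O → Prop
  | emit _ => True
  | seq p q => p.WF ∧ q.WF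
  | rep x a p => a.WF ∧ x ∉ a.regs ∧ p.WF ∧ x ∉ p.tmps
  | ifp u a p q => a.WF ∧ u ∉ a.regs ∧ p.WF ∧ q.WF

instance decWF : (e : Gn V O) → Decidable e.WF
  | emit _ => inferInstanceAs (Decidable True)
  | seq p q =>
    have := decWF p
    have := decWF q
    inferInstanceAs (Decidable (p.WF ∧ q.WF))
  | rep x a p =>
    have := decWF p
    inferInstanceAs (Decidable (a.WF ∧ x ∉ a.regs ∧ p.WF ∧ x ∉ p.tmps))
  | ifp u a p q =>
    have := decWF p
    have := decWF q
    inferInstanceAs (Decidable (a.WF ∧ u ∉ a.regs ∧ p.WF ∧ q.WF))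

/-- The program that pushes a list on the output. -/
def emitProg : List O → Prog (Gam A O V)
  | [] => .skip
  | a :: l => .seq (emitProg l) (.push .out a)

/-- The program that pushes the generated list on the output. -/
def prog : Gn V O → Prog (Gam A O V)
  | emit l => emitProg l
  | seq p q => .seq (prog q) (prog p)
  | rep x a p => .seq (a.prog x) (whileR x (.seq (popR x) (prog p)))
  | ifp u a p q => .seq (a.prog u) (ifR u (.seq (clearR u) (prog p)) (prog q))

theorem emitProg_spec (i : List A) (o l : List O) (ρ : V → ℕ) :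
    RunsIn (emitProg l) (mkS i o 0 ρ) (mkS i (l ++ o) 0 ρ) (l.length + 1) := by
  induction l with
  | nil => exact RunsIn.skip _
  | cons a l ih => exact ih.seq (runs_emit1 i (l ++ o) 0 ρ a)

theorem prog_spec (i : List A) (p : Gn V O) : ∀ (o : List O) (ρ : V → ℕ), p.WF →
    (∀ x ∈ p.tmps, ρ x = 0) →
    RunsIn p.prog (mkS i o 0 ρ) (mkS i (p.gen ρ ++ o) 0 ρ) (p.time ρ) := by
  induction p with
  | emit l => exact fun o ρ _ _ => emitProg_spec i o l ρ
  | seq p q ihp ihq =>
    intro o ρ hw h0
    simp only [tmps, List.mem_append] at h0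
    have h1 := ihq o ρ hw.2 (fun x hx => h0 x (Or.inr hx))
    have h2 := ihp (q.gen ρ ++ o) ρ hw.1 (fun x hx => h0 x (Or.inl hx))
    refine (h1.seq h2).congr rfl ?_
    simp [gen]
  | rep x a p ihp =>
    intro o ρ hw h0
    obtain ⟨hwa, hxa, hwp, hxp⟩ := hw
    simp only [tmps, List.mem_append, List.mem_cons] at h0
    have hx0 : ρ x = 0 := h0 x (Or.inl rfl)
    have h1 := a.prog_spec i o x ρ hwa hxa (fun y hy => h0 y (Or.inr (Or.inl hy)))
    rw [hx0, Nat.zero_add] at h1
    set m := a.eval ρ with hm
    have h2 := RunsIn.loop (k := Stk.reg x) (test := ne)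
      (p := (.seq (popR x) p.prog : Prog (Gam A O V))) m
      (fun j => mkS i (((List.range' (m - j) j).flatMap fun j => p.gen (update ρ x j)) ++ o) 0
        (update ρ x (m - j)))
      (fun j => p.time (update ρ x (m - 1 - j)) + 1)
      (fun j hj => by rw [test_reg]; simpa using hj)
      (by rw [test_reg]; simp)
      (fun j hj => by
        have h3 := runs_popR i (((List.range' (m - j) j).flatMap fun j => p.gen (update ρ x j)) ++ o)
          0 (update ρ x (m - j)) x
        rw [update_self, update_idem, show m - j - 1 = m - (j + 1) by omega] at h3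
        have h4 := ihp (((List.range' (m - j) j).flatMap fun j => p.gen (update ρ x j)) ++ o)
          (update ρ x (m - (j + 1))) hwp (fun y hy => by
            rw [update_of_ne (by rintro rfl; exact hxp hy)]
            exact h0 y (Or.inr (Or.inr hy)))
        refine ((h3.seq h4).mono ?_).congr rfl ?_
        · rw [show m - 1 - j = m - (j + 1) by omega]
          omega
        · rw [List.range'_succ, List.flatMap_cons, List.append_assoc,
            show m - (j + 1) + 1 = m - j by omega])
    refine ((h1.seq (h2.congr ?_ rfl)).mono ?_).congr rfl ?_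
    · simp
    · simp only [time, ← hm]
      rw [Finset.sum_range_reflect (fun j => p.time (update ρ x j) + 1 + 1) m]
    · rw [Nat.sub_self, show update ρ x 0 = ρ by rw [← hx0, update_eq_self]]
      simp only [gen, ← hm, List.range_eq_range']
  | ifp u a p q ihp ihq =>
    intro o ρ hw h0
    obtain ⟨hwa, hua, hwp, hwq⟩ := hw
    simp only [tmps, List.mem_append, List.mem_cons] at h0
    have hu0 : ρ u = 0 := h0 u (Or.inl rfl)
    have h1 := a.prog_spec i o u ρ hwa hua (fun y hy => h0 y (Or.inr (Or.inl hy)))
    rw [hu0, Nat.zero_add] at h1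
    by_cases ha : 0 < a.eval ρ
    · have h3 := runs_clearR i o 0 (update ρ u (a.eval ρ)) u
      rw [update_self, update_idem, show update ρ u 0 = ρ by rw [← hu0, update_eq_self]] at h3
      have h4 := ihp o ρ hwp (fun y hy => h0 y (Or.inr (Or.inr (Or.inl hy))))
      have h2 := RunsIn.iteT (k := Stk.reg u) (test := ne) (q := q.prog)
        (by rw [test_reg]; simpa using ha) (h3.seq h4)
      refine ((h1.seq h2).mono ?_).congr rfl ?_
      · simp only [time]
        omega
      · simp [gen, ha]
    · have ha0 : a.eval ρ = 0 := by omega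
      have h4 := ihq o ρ hwq (fun y hy => h0 y (Or.inr (Or.inr (Or.inr hy))))
      rw [ha0, show update ρ u 0 = ρ by rw [← hu0, update_eq_self]] at h1
      have h2 := RunsIn.iteF (k := Stk.reg u) (test := ne) (p := .seq (clearR u) p.prog)
        (by rw [test_reg]; simp [hu0]) h4
      refine ((h1.seq h2).mono ?_).congr rfl ?_
      · simp only [time]
        omega
      · simp [gen, ha0]

theorem bound (p : Gn V O) : ∃ f : ℕ → ℕ, PB f ∧ ∀ (X : ℕ) (ρ : V → ℕ), (∀ x, ρ x ≤ X) →
    p.time ρ ≤ f X := by
  induction p with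
  | emit l => exact ⟨fun _ => l.length + 1, PB.const _, fun X ρ _ => le_rfl⟩
  | seq p q ihp ihq =>
    obtain ⟨f, hf, hf'⟩ := ihp
    obtain ⟨g, hg, hg'⟩ := ihq
    refine ⟨fun X => g X + f X, hg.add hf, fun X ρ h => ?_⟩
    have h1 := hf' X ρ h
    have h2 := hg' X ρ h
    simp only [time]
    omega
  | rep x a p ihp =>
    obtain ⟨f, hf, hf'⟩ := a.bound
    obtain ⟨g, hg, hg'⟩ := ihp
    refine ⟨fun X => f X + (f X * (g (X + f X) + 2) + 1),
      hf.add ((hf.mul ((hg.comp (PB.id.add hf)).add (PB.const 2))).add (PB.const 1)),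
      fun X ρ h => ?_⟩
    have h1 := hf' X ρ h
    have h2 : ∀ j ∈ Finset.range (a.eval ρ), p.time (update ρ x j) ≤ g (X + f X) := by
      intro j hj
      refine hg' (X + f X) _ fun y => ?_
      have hj' := Finset.mem_range.1 hj
      by_cases hy : y = x
      · subst hy
        simp
        omega
      · rw [update_of_ne hy]
        have := h y
        omega
    simp only [time]
    have h3 : ∑ j ∈ Finset.range (a.eval ρ), (p.time (update ρ x j) + 2)
        ≤ f X * (g (X + f X) + 2) :=
      calc ∑ j ∈ Finset.range (a.eval ρ), (p.time (update ρ x j) + 2)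
          ≤ ∑ j ∈ Finset.range (a.eval ρ), (g (X + f X) + 2) :=
            Finset.sum_le_sum fun j hj => Nat.add_le_add_right (h2 j hj) 2
        _ = a.eval ρ * (g (X + f X) + 2) := by simp
        _ ≤ f X * (g (X + f X) + 2) := Nat.mul_le_mul_right _ h1.1
    omega
  | ifp u a p q ihp ihq =>
    obtain ⟨f, hf, hf'⟩ := a.bound
    obtain ⟨g, hg, hg'⟩ := ihp
    obtain ⟨h, hh, hh'⟩ := ihq
    refine ⟨fun X => f X + ((2 * f X + 1) + g X + h X + 1),
      hf.add ((((((PB.const 2).mul hf).add (PB.const 1)).add hg).add hh).add (PB.const 1)),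
      fun X ρ hX => ?_⟩
    have h1 := hf' X ρ hX
    have h2 := hg' X ρ hX
    have h3 := hh' X ρ hX
    simp only [time]
    omega

end Gn

end Vale.Agent.P314.TM
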