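import Mathlib

/-!
# A small structured language compiled to `TM2` machines

Programs act on a family of stacks. `Prog.code` compiles a program to `TM2` statements and
`Run.correct` says that a run of the program in `t` steps is a run of the machine in `t` steps.
-/

namespace Vale.Agent.P314.TM

open Turing

variable {K : Type} [DecidableEq K] {Γ : K → Type}

/-- Structured programs over a family of stacks. -/
inductive Prog (Γ : K → Type) : Type
  | skip : Prog Γ
  | push (k : K) (a : Γ k) : Prog Γ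
  | pop (k : K) : Prog Γ
  | seq (p q : Prog Γ) : Prog Γ
  | ite (k : K) (test : Option (Γ k) → Bool) (p q : Prog Γ) : Prog Γ
  | loop (k : K) (test : Option (Γ k) → Bool) (p : Prog Γ) : Prog Γ

/-- The labels of the machine compiled from a program. -/
def Prog.Lbl : Prog Γ → Type
  | .skip => Unit
  | .push _ _ => Unit
  | .pop _ => Unit
  | .seq p q => p.Lbl ⊕ q.Lbl
  | .ite _ _ p q => Option (p.Lbl ⊕ q.Lbl)
  | .loop _ _ p => Option p.Lbl

/-- There are finitely many labels. -/
@[instance_reducible] def Prog.fintypeLbl : (p : Prog Γ) → Fintype p.Lbl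
  | .skip => inferInstanceAs (Fintype Unit)
  | .push _ _ => inferInstanceAs (Fintype Unit)
  | .pop _ => inferInstanceAs (Fintype Unit)
  | .seq p q =>
    have := p.fintypeLbl
    have := q.fintypeLbl
    inferInstanceAs (Fintype (p.Lbl ⊕ q.Lbl))
  | .ite _ _ p q =>
    have := p.fintypeLbl
    have := q.fintypeLbl
    inferInstanceAs (Fintype (Option (p.Lbl ⊕ q.Lbl)))
  | .loop _ _ p =>
    have := p.fintypeLbl
    inferInstanceAs (Fintype (Option p.Lbl))

/-- The first label. -/
def Prog.start : (p : Prog Γ) → p.Lbl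
  | .skip => ()
  | .push _ _ => ()
  | .pop _ => ()
  | .seq p _ => Sum.inl p.start
  | .ite _ _ _ _ => none
  | .loop _ _ _ => none

/-- The compiled code, with labels embedded by `emb`, leaving through `exit`. -/
def Prog.code {Λ : Type} : (p : Prog Γ) → (p.Lbl → Λ) → Λ → p.Lbl → TM2.Stmt Γ Λ Bool
  | .skip, _, ex, _ => .goto fun _ => ex
  | .push k a, _, ex, _ => .push k (fun _ => a) (.goto fun _ => ex)
  | .pop k, _, ex, _ => .pop k (fun v _ => v) (.goto fun _ => ex)
  | .seq p q, emb, ex, l =>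
    match l with
    | Sum.inl l => p.code (fun x => emb (Sum.inl x)) (emb (Sum.inr q.start)) l
    | Sum.inr l => q.code (fun x => emb (Sum.inr x)) ex l
  | .ite k test p q, emb, ex, l =>
    match l with
    | none => .peek k (fun _ o => test o) (.branch id (.goto fun _ => emb (some (Sum.inl p.start)))
        (.goto fun _ => emb (some (Sum.inr q.start))))
    | some (Sum.inl l) => p.code (fun x => emb (some (Sum.inl x))) ex l
    | some (Sum.inr l) => q.code (fun x => emb (some (Sum.inr x))) ex l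
  | .loop k test p, emb, ex, l =>
    match l with
    | none => .peek k (fun _ o => test o) (.branch id (.goto fun _ => emb (some p.start))
        (.goto fun _ => ex))
    | some l => p.code (fun x => emb (some x)) (emb none) l

/-- Big-step semantics with the exact number of steps. -/
inductive Run : Prog Γ → (∀ k, List (Γ k)) → (∀ k, List (Γ k)) → ℕ → Prop
  | skip (S) : Run .skip S S 1
  | push (k a S) : Run (.push k a) S (Function.update S k (a :: S k)) 1
  | pop (k S) : Run (.pop k) S (Function.update S k (S k).tail) 1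
  | seq {p q S S' S'' t t'} : Run p S S' t → Run q S' S'' t' → Run (.seq p q) S S'' (t + t')
  | iteT {k test p q S S' t} : test (S k).head? = true → Run p S S' t →
      Run (.ite k test p q) S S' (1 + t)
  | iteF {k test p q S S' t} : test (S k).head? = false → Run q S S' t →
      Run (.ite k test p q) S S' (1 + t)
  | loopF {k test p S} : test (S k).head? = false → Run (.loop k test p) S S 1
  | loopT {k test p S S' S'' t t'} : test (S k).head? = true → Run p S S' t →
      Run (.loop k test p) S' S'' t' → Run (.loop k test p) S S'' (1 + t + t')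

theorem iter_add {σ : Type} (f : σ → Option σ) {a b c : σ} {m n : ℕ}
    (h₁ : (flip bind f)^[m] (some a) = some b) (h₂ : (flip bind f)^[n] (some b) = some c) :
    (flip bind f)^[m + n] (some a) = some c := by
  rw [Nat.add_comm, Function.iterate_add_apply, h₁, h₂]

theorem iter_one {σ : Type} (f : σ → Option σ) {a b : σ} (h : f a = some b) :
    (flip bind f)^[1] (some a) = some b := by
  simpa [flip] using h

theorem step_eq {Λ : Type} (M : Λ → TM2.Stmt Γ Λ Bool) {l : Λ} {s : TM2.Stmt Γ Λ Bool}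
    {v : Bool} {S : ∀ k, List (Γ k)} {c : TM2.Cfg Γ Λ Bool} (h : M l = s)
    (hc : TM2.stepAux s v S = c) : TM2.step M ⟨some l, v, S⟩ = some c := by
  subst h
  subst hc
  rfl

theorem stepAux_testT {Λ : Type} {k : K} {test : Option (Γ k) → Bool} {l₁ l₂ : Λ} {v : Bool}
    {S : ∀ k, List (Γ k)} (hb : test (S k).head? = true) :
    TM2.stepAux (.peek k (fun _ o => test o) (.branch id (.goto fun _ => l₁) (.goto fun _ => l₂)) :
      TM2.Stmt Γ Λ Bool) v S = ⟨some l₁, true, S⟩ := by
  simp [hb]

theorem stepAux_testF {Λ : Type} {k : K} {test : Option (Γ k) → Bool} {l₁ l₂ : Λ} {v : Bool}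
    {S : ∀ k, List (Γ k)} (hb : test (S k).head? = false) :
    TM2.stepAux (.peek k (fun _ o => test o) (.branch id (.goto fun _ => l₁) (.goto fun _ => l₂)) :
      TM2.Stmt Γ Λ Bool) v S = ⟨some l₂, false, S⟩ := by
  simp [hb]

theorem Run.correct {Λ : Type} (M : Λ → TM2.Stmt Γ Λ Bool) {p : Prog Γ} {S S' t}
    (h : Run p S S' t) : ∀ (emb : p.Lbl → Λ) (ex : Λ), (∀ l, M (emb l) = p.code emb ex l) →
      ∀ v : Bool, ∃ v' : Bool, (flip bind (TM2.step M))^[t]
        (some (⟨some (emb p.start), v, S⟩ : TM2.Cfg Γ Λ Bool)) = some ⟨some ex, v', S'⟩ := by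
  induction h with
  | skip S =>
    intro emb ex hM v
    exact ⟨v, iter_one _ (step_eq M (hM _) rfl)⟩
  | push k a S =>
    intro emb ex hM v
    exact ⟨v, iter_one _ (step_eq M (hM _) rfl)⟩
  | pop k S =>
    intro emb ex hM v
    exact ⟨v, iter_one _ (step_eq M (hM _) rfl)⟩
  | @seq p q S S' S'' t t' _ _ ih₁ ih₂ =>
    intro emb ex hM v
    obtain ⟨v₁, h₁⟩ := ih₁ (fun x => emb (Sum.inl x)) (emb (Sum.inr q.start))
      (fun l => hM (Sum.inl l)) v
    obtain ⟨v₂, h₂⟩ := ih₂ (fun x => emb (Sum.inr x)) ex (fun l => hM (Sum.inr l)) v₁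
    exact ⟨v₂, iter_add _ h₁ h₂⟩
  | @iteT k test p q S S' t hb _ ih =>
    intro emb ex hM v
    obtain ⟨v₁, h₁⟩ := ih (fun x => emb (some (Sum.inl x))) ex
      (fun l => hM (some (Sum.inl l))) true
    exact ⟨v₁, iter_add _ (iter_one _ (step_eq M (hM none) (stepAux_testT hb))) h₁⟩
  | @iteF k test p q S S' t hb _ ih =>
    intro emb ex hM v
    obtain ⟨v₁, h₁⟩ := ih (fun x => emb (some (Sum.inr x))) ex
      (fun l => hM (some (Sum.inr l))) false
    exact ⟨v₁, iter_add _ (iter_one _ (step_eq M (hM none) (stepAux_testF hb))) h₁⟩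
  | @loopF k test p S hb =>
    intro emb ex hM v
    exact ⟨false, iter_one _ (step_eq M (hM none) (stepAux_testF hb))⟩
  | @loopT k test p S S' S'' t t' hb _ _ ih₁ ih₂ =>
    intro emb ex hM v
    obtain ⟨v₁, h₁⟩ := ih₁ (fun x => emb (some x)) (emb none) (fun l => hM (some l)) true
    obtain ⟨v₂, h₂⟩ := ih₂ emb ex hM v₁
    exact ⟨v₂, iter_add _ (iter_add _ (iter_one _ (step_eq M (hM none) (stepAux_testT hb))) h₁) h₂⟩

/-- The whole machine of a program. -/
def Prog.machine (p : Prog Γ) : Option p.Lbl → TM2.Stmt Γ (Option p.Lbl) Bool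
  | none => .load (fun _ => false) .halt
  | some l => p.code some none l

theorem Run.machine {p : Prog Γ} {S S' t} (h : Run p S S' t) (v : Bool) :
    (flip bind (TM2.step p.machine))^[t + 1]
        (some (⟨some (some p.start), v, S⟩ : TM2.Cfg Γ (Option p.Lbl) Bool))
      = some ⟨none, false, S'⟩ := by
  obtain ⟨v', h'⟩ := h.correct p.machine some none (fun l => rfl) v
  refine iter_add _ h' (iter_one _ ?_)
  simp [Prog.machine]

/-- A run within a time bound. -/
def RunsIn (p : Prog Γ) (S S' : ∀ k, List (Γ k)) (T : ℕ) : Prop := ∃ t ≤ T, Run p S S' t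

theorem RunsIn.mono {p : Prog Γ} {S S' : ∀ k, List (Γ k)} {T T' : ℕ} (h : RunsIn p S S' T)
    (hT : T ≤ T') : RunsIn p S S' T' := by
  obtain ⟨t, ht, hr⟩ := h
  exact ⟨t, ht.trans hT, hr⟩

theorem RunsIn.congr {p : Prog Γ} {S S' S₁ S₁' : ∀ k, List (Γ k)} {T : ℕ} (h : RunsIn p S S' T)
    (hS : S = S₁) (hS' : S' = S₁') : RunsIn p S₁ S₁' T := by
  subst hS
  subst hS'
  exact h

theorem RunsIn.seq {p q : Prog Γ} {S S' S'' : ∀ k, List (Γ k)} {T T' : ℕ} (h : RunsIn p S S' T)
    (h' : RunsIn q S' S'' T') : RunsIn (.seq p q) S S'' (T + T') := by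
  obtain ⟨t, ht, hr⟩ := h
  obtain ⟨t', ht', hr'⟩ := h'
  exact ⟨t + t', by omega, .seq hr hr'⟩

theorem RunsIn.skip (S : ∀ k, List (Γ k)) : RunsIn .skip S S 1 := ⟨1, le_rfl, .skip S⟩

theorem RunsIn.push (k : K) (a : Γ k) (S : ∀ k, List (Γ k)) :
    RunsIn (.push k a) S (Function.update S k (a :: S k)) 1 := ⟨1, le_rfl, .push k a S⟩

theorem RunsIn.pop (k : K) (S : ∀ k, List (Γ k)) :
    RunsIn (.pop k) S (Function.update S k (S k).tail) 1 := ⟨1, le_rfl, .pop k S⟩

theorem RunsIn.iteT {k test} {p q : Prog Γ} {S S' : ∀ k, List (Γ k)} {T : ℕ}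
    (hb : test (S k).head? = true) (h : RunsIn p S S' T) : RunsIn (.ite k test p q) S S' (T + 1) := by
  obtain ⟨t, ht, hr⟩ := h
  exact ⟨1 + t, by omega, .iteT hb hr⟩

theorem RunsIn.iteF {k test} {p q : Prog Γ} {S S' : ∀ k, List (Γ k)} {T : ℕ}
    (hb : test (S k).head? = false) (h : RunsIn q S S' T) :
    RunsIn (.ite k test p q) S S' (T + 1) := by
  obtain ⟨t, ht, hr⟩ := h
  exact ⟨1 + t, by omega, .iteF hb hr⟩

/-- A loop whose `m` iterations pass through the states `st 0, …, st m`. -/
theorem RunsIn.loop {k test} {p : Prog Γ} (m : ℕ) (st : ℕ → ∀ k, List (Γ k)) (T : ℕ → ℕ)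
    (hT : ∀ i < m, test (st i k).head? = true) (hm : test (st m k).head? = false)
    (hstep : ∀ i < m, RunsIn p (st i) (st (i + 1)) (T i)) :
    RunsIn (.loop k test p) (st 0) (st m) ((∑ i ∈ Finset.range m, (T i + 1)) + 1) := by
  induction m generalizing st T with
  | zero => exact ⟨1, by simp, .loopF hm⟩
  | succ m ih =>
    obtain ⟨t, ht, hr⟩ := hstep 0 (Nat.succ_pos m)
    obtain ⟨t', ht', hr'⟩ := ih (fun i => st (i + 1)) (fun i => T (i + 1))
      (fun i hi => hT (i + 1) (by omega)) hm (fun i hi => hstep (i + 1) (by omega))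
    refine ⟨1 + t + t', ?_, .loopT (hT 0 (Nat.succ_pos m)) hr hr'⟩
    rw [Finset.sum_range_succ']
    omega

end Vale.Agent.P314.TM
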