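import Vale.Agent.P314.TMExpr

/-!
# From a list generator to a polynomial time `TM2` machine with two unary inputs
-/

namespace Vale.Agent.P314.TM

open Turing Function

variable {O V : Type} [DecidableEq V]

/-- test for a tally mark on the input -/
def isOne : Option Bool → Bool
  | some true => true
  | _ => false

/-- read a block of tally marks into a register -/
abbrev readBlock (x : V) : Prog (Gam Bool O V) :=
  .loop .inp isOne (.seq (.pop .inp) (pushR x))

theorem runs_readBlock (m : ℕ) (rest : List Bool) (hrest : isOne rest.head? = false) (o : List O)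
    (ρ : V → ℕ) (x : V) :
    RunsIn (readBlock x) (mkS (List.replicate m true ++ rest) o 0 ρ)
      (mkS rest o 0 (update ρ x (ρ x + m))) (3 * m + 1) := by
  have h := RunsIn.loop (k := Stk.inp) (test := isOne)
    (p := (.seq (.pop .inp) (pushR x) : Prog (Gam Bool O V))) m
    (fun j => mkS (List.replicate (m - j) true ++ rest) o 0 (update ρ x (ρ x + j))) (fun _ => 2)
    (fun j hj => by
      obtain ⟨l, hl⟩ : ∃ l, m - j = l + 1 := ⟨m - j - 1, by omega⟩
      simp only [mkS, hl, List.replicate_succ, List.cons_append, List.head?_cons]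
      rfl)
    (by simpa [mkS] using hrest)
    (fun j hj => by
      obtain ⟨l, hl⟩ : ∃ l, m - j = l + 1 := ⟨m - j - 1, by omega⟩
      have h1 := runs_popI (List.replicate (m - j) true ++ rest) o 0 (update ρ x (ρ x + j))
      have h2 := runs_pushR (List.replicate (m - j) true ++ rest).tail o 0
        (update ρ x (ρ x + j)) x
      refine (h1.seq h2).congr rfl ?_
      rw [hl, show m - (j + 1) = l by omega, List.replicate_succ, List.cons_append,
        List.tail_cons, update_self, update_idem, Nat.add_assoc])
  refine (h.mono ?_).congr ?_ ?_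
  · simp
    omega
  · simp
  · simp

/-- the whole program -/
def wholeProg (P : Gn V O) (r₁ r₂ : V) : Prog (Gam Bool O V) :=
  .seq (readBlock r₁) (.seq (.pop .inp) (.seq (readBlock r₂) (.seq P.prog
    (.seq (clearR r₁) (clearR r₂)))))

/-- the initial values of the registers -/
def initReg (r₁ r₂ : V) (n s : ℕ) : V → ℕ := update (update (fun _ => 0) r₁ n) r₂ s

theorem runs_whole (P : Gn V O) (hP : P.WF) (r₁ r₂ : V) (h12 : r₁ ≠ r₂) (h1 : r₁ ∉ P.tmps)
    (h2 : r₂ ∉ P.tmps) (n s : ℕ) :
    RunsIn (wholeProg P r₁ r₂)
      (mkS (List.replicate n true ++ false :: List.replicate s true) [] 0 (fun _ => 0))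
      (mkS [] (P.gen (initReg r₁ r₂ n s)) 0 (fun _ => 0))
      (5 * n + 5 * s + 5 + P.time (initReg r₁ r₂ n s)) := by
  have e1 := runs_readBlock (O := O) n (false :: List.replicate s true) rfl [] (fun _ : V => 0) r₁
  rw [Nat.zero_add] at e1
  have e2 := runs_popI (O := O) (A := Bool) (false :: List.replicate s true) [] 0
    (update (fun _ : V => 0) r₁ n)
  rw [List.tail_cons] at e2
  have e3 := runs_readBlock (O := O) s [] rfl [] (update (fun _ : V => 0) r₁ n) r₂
  rw [List.append_nil, update_of_ne h12.symm, Nat.zero_add] at e3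
  have e4 := P.prog_spec (A := Bool) [] [] (initReg r₁ r₂ n s) hP (fun x hx => by
    rw [initReg, update_of_ne (by rintro rfl; exact h2 hx),
      update_of_ne (by rintro rfl; exact h1 hx)])
  rw [List.append_nil] at e4
  have e5 := runs_clearR (A := Bool) [] (P.gen (initReg r₁ r₂ n s)) 0 (initReg r₁ r₂ n s) r₁
  have e6 := runs_clearR (A := Bool) [] (P.gen (initReg r₁ r₂ n s)) 0
    (update (initReg r₁ r₂ n s) r₁ 0) r₂
  have v1 : initReg r₁ r₂ n s r₁ = n := by simp [initReg, h12]
  have v2 : (update (initReg r₁ r₂ n s) r₁ 0) r₂ = s := by simp [initReg, h12.symm]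
  have v3 : update (update (initReg r₁ r₂ n s) r₁ 0) r₂ 0 = fun _ => 0 := by
    funext x
    by_cases hx2 : x = r₂
    · subst hx2
      simp
    · by_cases hx1 : x = r₁
      · subst hx1
        simp [hx2]
      · simp [initReg, hx1, hx2]
  rw [v1] at e5
  rw [v2, v3] at e6
  refine (e1.seq (e2.seq (e3.seq (e4.seq (e5.seq e6))))).mono ?_
  omega

/-- the machine -/
noncomputable def finTM [Fintype V] [Fintype O] (P : Gn V O) (r₁ r₂ : V) : FinTM2 where
  K := Stk V
  k₀ := .inp
  k₁ := .out
  Γ := Gam Bool O V
  Λ := Option (wholeProg P r₁ r₂).Lbl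
  main := some (wholeProg P r₁ r₂).start
  ΛFin := have := (wholeProg P r₁ r₂).fintypeLbl; inferInstance
  σ := Bool
  initialState := false
  Γk₀Fin := inferInstanceAs (Fintype Bool)
  m := (wholeProg P r₁ r₂).machine

theorem exists_computable [Fintype V] [Fintype O] {β : Type} (P : Gn V O) (hP : P.WF) (r₁ r₂ : V)
    (h12 : r₁ ≠ r₂) (h1 : r₁ ∉ P.tmps) (h2 : r₂ ∉ P.tmps) (ea : ℕ × ℕ → List Bool)
    (hea : ∀ p, ea p = List.replicate p.1 true ++ false :: List.replicate p.2 true)
    (eb : β → List O) (f : ℕ × ℕ → β) (hf : ∀ p, eb (f p) = P.gen (initReg r₁ r₂ p.1 p.2)) :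
    ∃ C : TM2ComputableInPolyTime ea eb f, ∀ k, Finite (C.tm.Γ k) := by
  obtain ⟨g, hg, hg'⟩ := P.bound
  obtain ⟨c, k, hck⟩ := ((((PB.const 5).mul PB.id).add (PB.const 6)).add hg)
  have key : ∀ p : ℕ × ℕ, Nonempty (TM2OutputsInTime (finTM P r₁ r₂)
      (List.map (Equiv.refl Bool).invFun (ea p))
      (Option.some ((List.map (Equiv.refl O).invFun) (eb (f p))))
      ((Polynomial.C c * (Polynomial.X + 1) ^ k : Polynomial ℕ).eval (ea p).length)) := by
    rintro ⟨n, s⟩
    obtain ⟨t, ht, hr⟩ := runs_whole P hP r₁ r₂ h12 h1 h2 n s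
    have hm := hr.machine false
    refine ⟨⟨⟨t + 1, ?_⟩, ?_⟩⟩
    · have hi : initList (finTM P r₁ r₂) (List.map (Equiv.refl Bool).invFun (ea (n, s)))
          = (⟨some (some (wholeProg P r₁ r₂).start), false,
            mkS (List.replicate n true ++ false :: List.replicate s true) [] 0 (fun _ => 0)⟩ :
            TM2.Cfg (Gam Bool O V) (Option (wholeProg P r₁ r₂).Lbl) Bool) := by
        rw [hea]
        unfold initList
        congr 1
        funext k
        cases k with
        | inp =>
          refine (dif_pos rfl).trans ?_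
          exact List.map_id _
        | _ => exact dif_neg (by intro h; cases h)
      have ho : haltList (finTM P r₁ r₂) (List.map (Equiv.refl O).invFun (eb (f (n, s))))
          = (⟨none, false, mkS [] (P.gen (initReg r₁ r₂ n s)) 0 (fun _ => 0)⟩ :
            TM2.Cfg (Gam Bool O V) (Option (wholeProg P r₁ r₂).Lbl) Bool) := by
        rw [hf]
        unfold haltList
        congr 1
        funext k
        cases k with
        | out =>
          refine (dif_pos rfl).trans ?_
          exact List.map_id _
        | _ => exact dif_neg (by intro h; cases h)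
      rw [hi]
      exact hm.trans (congrArg some ho.symm)
    · have hlen : (ea (n, s)).length = n + s + 1 := by
        rw [hea]
        simp
        omega
      have hb := hg' (n + s + 1) (initReg r₁ r₂ n s) (fun x => by
        by_cases hx2 : x = r₂
        · subst hx2
          simp [initReg]
          omega
        · by_cases hx1 : x = r₁
          · subst hx1
            simp [initReg, hx2]
            omega
          · simp [initReg, hx1, hx2])
      have hc := hck (n + s + 1)
      beta_reduce at hc
      simp only [Polynomial.eval_mul, Polynomial.eval_C, Polynomial.eval_pow, Polynomial.eval_add,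
        Polynomial.eval_X, Polynomial.eval_one, hlen]
      refine le_trans ?_ hc
      omega
  refine ⟨{ tm := finTM P r₁ r₂
            inputAlphabet := Equiv.refl Bool
            outputAlphabet := Equiv.refl O
            time := Polynomial.C c * (Polynomial.X + 1) ^ k
            outputsFun := fun p => (key p).some }, ?_⟩
  intro k
  cases k with
  | inp => exact inferInstanceAs (Finite Bool)
  | out => exact inferInstanceAs (Finite O)
  | scr => exact inferInstanceAs (Finite Unit)
  | reg x => exact inferInstanceAs (Finite Unit)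

end Vale.Agent.P314.TM
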