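import Vale.Agent.P314.Faithful

/-!
# Fraction-free version of the nested sums, transfer, and degree bounds
-/

namespace Vale.Agent.P314

open Finset Polynomial

section Transfer

variable {F : Type*} [Field F] {n : ℕ}

/-- summation operator with weights -/
def sumop {A : Type*} [CommRing A] (φ : ℕ → A) : (ℕ → A) →ₗ[A] (ℕ → A) where
  toFun x k := ∑ j ∈ range k, φ j * x j
  map_add' x y := by
    funext k
    simp [mul_add, Finset.sum_add_distrib]
  map_smul' c x := by
    funext k
    simp only [Pi.smul_apply, smul_eq_mul, RingHom.id_apply, Finset.mul_sum]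
    exact Finset.sum_congr rfl fun j _ => by ring

theorem sumop_apply {A : Type*} [CommRing A] (φ : ℕ → A) (x : ℕ → A) (k : ℕ) :
    sumop φ x k = ∑ j ∈ range k, φ j * x j := rfl

theorem sumop_zero {A : Type*} [CommRing A] (φ : ℕ → A) (x : ℕ → A) : sumop φ x 0 = 0 := by
  simp [sumop_apply]

theorem sumop_succ {A : Type*} [CommRing A] (φ : ℕ → A) (x : ℕ → A) (k : ℕ) :
    sumop φ x (k + 1) = sumop φ x k + φ k * x k := by
  simp [sumop_apply, Finset.sum_range_succ]

/-- the fraction-free recursion -/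
def ffrec {A : Type*} [CommRing A] (P p : ℕ → A) (x : ℕ → A) : ℕ → A
  | 0 => 0
  | k + 1 => P k * ffrec P p x k + p k * x k

/-- the fraction-free operator -/
def ffop {A : Type*} [CommRing A] (P p : ℕ → A) : (ℕ → A) →ₗ[A] (ℕ → A) where
  toFun x := ffrec P p x
  map_add' x y := by
    funext k
    induction k with
    | zero => simp [ffrec]
    | succ k ih => rw [Pi.add_apply] at *; simp only [ffrec, ih, Pi.add_apply]; ring
  map_smul' c x := by
    funext k
    induction k with
    | zero => simp [ffrec]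
    | succ k ih =>
      rw [RingHom.id_apply, Pi.smul_apply] at *
      simp only [ffrec, ih, Pi.smul_apply, smul_eq_mul]; ring

theorem ffop_zero {A : Type*} [CommRing A] (P p : ℕ → A) (x : ℕ → A) : ffop P p x 0 = 0 := rfl

theorem ffop_succ {A : Type*} [CommRing A] (P p : ℕ → A) (x : ℕ → A) (k : ℕ) :
    ffop P p x (k + 1) = P k * ffop P p x k + p k * x k := rfl

/-- representation by summation operators -/
noncomputable def opS {A : Type*} [CommRing A] [Algebra F A] (φ : Fin n → ℕ → A) :
    FreeAlgebra F (Fin n) →ₐ[F] Module.End A (ℕ → A) :=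
  FreeAlgebra.lift F fun i => sumop (φ i)

/-- representation by fraction-free operators -/
noncomputable def opF {A : Type*} [CommRing A] [Algebra F A] (P : ℕ → A) (p : Fin n → ℕ → A) :
    FreeAlgebra F (Fin n) →ₐ[F] Module.End A (ℕ → A) :=
  FreeAlgebra.lift F fun i => ffop P (p i)

theorem transfer {A A' : Type*} [CommRing A] [Algebra F A] [CommRing A'] [Algebra F A']
    (θ : A →ₐ[F] A') (P : ℕ → A) (p : Fin n → ℕ → A) (φ : Fin n → ℕ → A')
    (h : ∀ i j, φ i j * θ (P j) = θ (p i j)) (f : FreeAlgebra F (Fin n)) :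
    ∀ (x : ℕ → A) (x' : ℕ → A'), (∀ k, θ (x k) = (∏ m ∈ range k, θ (P m)) * x' k) →
      ∀ k, θ (opF P p f x k) = (∏ m ∈ range k, θ (P m)) * opS φ f x' k := by
  induction f using FreeAlgebra.induction with
  | grade0 r =>
    intro x x' hx k
    simp only [AlgHom.commutes, Module.algebraMap_end_apply, Pi.smul_apply]
    rw [map_smul, hx, mul_smul_comm]
  | grade1 i =>
    intro x x' hx k
    simp only [opF, opS, FreeAlgebra.lift_ι_apply]
    induction k with
    | zero => simp [ffop_zero, sumop_zero]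
    | succ k ih =>
      rw [ffop_succ, sumop_succ, map_add, map_mul, map_mul, ih, hx, ← h, Finset.prod_range_succ]
      ring
  | mul a b ha hb =>
    intro x x' hx k
    rw [map_mul, map_mul, Module.End.mul_apply, Module.End.mul_apply]
    exact ha _ _ (hb x x' hx) k
  | add a b ha hb =>
    intro x x' hx k
    rw [map_add, map_add, LinearMap.add_apply, LinearMap.add_apply, Pi.add_apply, Pi.add_apply,
      map_add, ha x x' hx k, hb x x' hx k, mul_add]

/-! ### bivariate polynomials -/

/-- the denominators `1 - (z^j s)^{n+1}` -/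
noncomputable def bP (F : Type*) [Field F] (n : ℕ) (j : ℕ) : F[X][X] :=
  1 - (C (X ^ j) * X) ^ (n + 1)

/-- the numerators `(z^j s)^{i+1}` -/
noncomputable def bp (F : Type*) [Field F] {n : ℕ} (i : Fin n) (j : ℕ) : F[X][X] :=
  (C (X ^ j) * X) ^ (i.1 + 1)

/-- bounded bidegree -/
def Bd (p : F[X][X]) (a b : ℕ) : Prop := p.natDegree ≤ a ∧ ∀ m, (p.coeff m).natDegree ≤ b

theorem Bd.mono {p : F[X][X]} {a b a' b' : ℕ} (h : Bd p a b) (ha : a ≤ a') (hb : b ≤ b') :
    Bd p a' b' := ⟨h.1.trans ha, fun m => (h.2 m).trans hb⟩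

theorem Bd.add {p q : F[X][X]} {a b : ℕ} (hp : Bd p a b) (hq : Bd q a b) : Bd (p + q) a b := by
  refine ⟨(natDegree_add_le _ _).trans (max_le hp.1 hq.1), fun m => ?_⟩
  rw [coeff_add]
  exact (natDegree_add_le _ _).trans (max_le (hp.2 m) (hq.2 m))

theorem Bd.sub {p q : F[X][X]} {a b : ℕ} (hp : Bd p a b) (hq : Bd q a b) : Bd (p - q) a b := by
  refine ⟨(natDegree_sub_le _ _).trans (max_le hp.1 hq.1), fun m => ?_⟩
  rw [coeff_sub]
  exact (natDegree_sub_le _ _).trans (max_le (hp.2 m) (hq.2 m))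

theorem Bd.mul {p q : F[X][X]} {a b a' b' : ℕ} (hp : Bd p a b) (hq : Bd q a' b') :
    Bd (p * q) (a + a') (b + b') := by
  refine ⟨natDegree_mul_le.trans (Nat.add_le_add hp.1 hq.1), fun m => ?_⟩
  rw [coeff_mul]
  refine natDegree_sum_le_of_forall_le _ _ fun x _ => ?_
  exact natDegree_mul_le.trans (Nat.add_le_add (hp.2 _) (hq.2 _))

theorem Bd.one (a b : ℕ) : Bd (1 : F[X][X]) a b := by
  refine ⟨by simp, fun m => ?_⟩
  rw [coeff_one]
  split_ifs <;> simp

theorem Bd.zero (a b : ℕ) : Bd (0 : F[X][X]) a b := by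
  refine ⟨by simp, fun m => by simp⟩

theorem Bd.pow_zs (j e : ℕ) : Bd ((C (X ^ j) * X) ^ e : F[X][X]) e (j * e) := by
  rw [mul_pow, ← C_pow, ← pow_mul]
  refine ⟨natDegree_C_mul_X_pow_le _ _, fun m => ?_⟩
  rw [coeff_C_mul_X_pow]
  split_ifs
  · simp
  · simp

theorem Bd.bP (n j : ℕ) : Bd (bP F n j) (n + 1) (j * (n + 1)) :=
  (Bd.one _ _).sub (Bd.pow_zs j (n + 1))

theorem Bd.bp {n : ℕ} (i : Fin n) (j : ℕ) : Bd (bp F i j) (n + 1) (j * (n + 1)) :=
  (Bd.pow_zs j (i.1 + 1)).mono (by omega) (Nat.mul_le_mul_left _ (by omega))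

/-- bounds for sequences -/
def BdSeq (n : ℕ) (x : ℕ → F[X][X]) : Prop :=
  ∀ k, Bd (x k) ((n + 1) * k) ((n + 1) * (k * k))

theorem BdSeq.ffop {x : ℕ → F[X][X]} (hx : BdSeq n x) (i : Fin n) :
    BdSeq n (ffop (Vale.Agent.P314.bP F n) (Vale.Agent.P314.bp F i) x) := by
  intro k
  induction k with
  | zero => rw [ffop_zero]; exact Bd.zero _ _
  | succ k ih =>
    rw [ffop_succ]
    have h1 := (Bd.bP (F := F) n k).mul ih
    have h2 := (Bd.bp (F := F) i k).mul (hx k)
    refine Bd.add (h1.mono ?_ ?_) (h2.mono ?_ ?_) <;> nlinarith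

theorem bdSeq_opF {x : ℕ → F[X][X]} (hx : BdSeq n x) (f : FreeAlgebra F (Fin n)) :
    BdSeq n (opF (bP F n) (fun i => bp F i) f x) := by
  induction f using FreeAlgebra.induction generalizing x with
  | grade0 r =>
    intro k
    simp only [AlgHom.commutes, Module.algebraMap_end_apply, Pi.smul_apply]
    refine ⟨(natDegree_smul_le _ _).trans (hx k).1, fun m => ?_⟩
    rw [coeff_smul]
    exact (natDegree_smul_le _ _).trans ((hx k).2 m)
  | grade1 i =>
    simp only [opF, FreeAlgebra.lift_ι_apply]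
    exact hx.ffop i
  | mul a b ha hb =>
    rw [map_mul, Module.End.mul_apply]
    exact ha (hb hx)
  | add a b ha hb =>
    intro k
    rw [map_add, LinearMap.add_apply, Pi.add_apply]
    exact (ha hx k).add (hb hx k)

/-- the initial sequence -/
noncomputable def initSeq (F : Type*) [Field F] (n : ℕ) (k : ℕ) : F[X][X] :=
  ∏ m ∈ range k, bP F n m

theorem bdSeq_initSeq (n : ℕ) : BdSeq n (initSeq F n) := by
  intro k
  induction k with
  | zero => exact Bd.one _ _
  | succ k ih =>
    rw [initSeq, Finset.prod_range_succ]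
    have h1 := ih.mul (Bd.bP (F := F) n k)
    refine h1.mono ?_ ?_ <;> nlinarith

/-- substituting `s = z^B` -/
theorem coeff_eval_pow (B : ℕ) (p : F[X][X]) (b : ℕ) (hb : ∀ m, (p.coeff m).natDegree ≤ b)
    (hB : b < B) (m c : ℕ) (hc : c < B) :
    (p.eval (X ^ B)).coeff (B * m + c) = (p.coeff m).coeff c := by
  rw [eval_eq_sum_range, finsetSum_coeff]
  by_cases hm : m ∈ range (p.natDegree + 1)
  · rw [Finset.sum_eq_single_of_mem m hm]
    · rw [← pow_mul, coeff_mul_X_pow', if_pos (by omega)]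
      congr 1
      omega
    · intro j _ hj
      rw [← pow_mul, coeff_mul_X_pow']
      split_ifs with h1
      · apply coeff_eq_zero_of_natDegree_lt
        refine (hb j).trans_lt ?_
        rcases Nat.lt_or_gt_of_ne hj with h2 | h2
        · have : B * (j + 1) ≤ B * m := Nat.mul_le_mul_left _ h2
          rw [Nat.mul_add] at this
          omega
        · have : B * (m + 1) ≤ B * j := Nat.mul_le_mul_left _ h2
          rw [Nat.mul_add] at this
          omega
      · rfl
  · have h0 : p.coeff m = 0 := by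
      apply coeff_eq_zero_of_natDegree_lt
      simpa [Nat.lt_succ_iff] using hm
    rw [h0, coeff_zero]
    refine Finset.sum_eq_zero fun j hj => ?_
    rw [← pow_mul, coeff_mul_X_pow']
    split_ifs with h1
    · apply coeff_eq_zero_of_natDegree_lt
      refine (hb j).trans_lt ?_
      have hjm : j < m := by
        simp only [mem_range] at hj hm
        omega
      have : B * (j + 1) ≤ B * m := Nat.mul_le_mul_left _ hjm
      rw [Nat.mul_add] at this
      omega
    · rfl

theorem exists_coeff_eval_ne_zero (B S b : ℕ) (p : F[X][X]) (hp : p ≠ 0) (hbd : Bd p S b)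
    (hB : b < B) : ∃ c < B * (S + 1), (p.eval (X ^ B)).coeff c ≠ 0 := by
  obtain ⟨m, hm⟩ : ∃ m, p.coeff m ≠ 0 := by
    by_contra hcon
    push Not at hcon
    exact hp (Polynomial.ext fun m => by simp [hcon m])
  obtain ⟨c, hc⟩ : ∃ c, (p.coeff m).coeff c ≠ 0 := by
    by_contra hcon
    push Not at hcon
    exact hm (Polynomial.ext fun m => by simp [hcon m])
  have h1 : m ≤ S := (le_natDegree_of_ne_zero hm).trans hbd.1
  have h2 : c ≤ b := (le_natDegree_of_ne_zero hc).trans (hbd.2 m)
  refine ⟨B * m + c, ?_, ?_⟩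
  · have : B * (m + 1) ≤ B * (S + 1) := Nat.mul_le_mul_left _ (by omega)
    rw [Nat.mul_add] at this
    omega
  · rw [coeff_eval_pow B p b hbd.2 hB m c (by omega)]
    exact hc

end Transfer

end Vale.Agent.P314
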